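import Vale.Agent.P281.H575.NU.Rl

/-! P281, theorem NU, row N6. -/

open scoped Manifold ContDiff Topology
open Set Filter MeasureTheory Vale.Agent.P272.K
open Vale.Agent.P272.K.INT (IsDensity intX IsClosedForm)
open Vale.Agent.P281.H342.NU Vale.Agent.P299 Vale.Agent.P299.H956 Vale.Agent.P281

set_option linter.all false

noncomputable section

namespace Vale.Agent.P281.H575.NU

section tube

variable {n p : ℕ} {X : Type} [TopologicalSpace X] [T2Space X] [CompactSpace X]
  [ChartedSpace (Cm n) X] [IsManifold 𝓘(ℂ, Cm n) ω X] {O : Set X} {y : X → Cm p} {W : Set (Cm p)}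

/-- sums of the local formulas -/
lemma sum_formula (h : IsTube (n := n) O y W) {D : Chart n X → Cm n → ℝ} (hD : DGood O D)
    {m : ℕ} {χ : Fin m → X → ℝ} (hχ : ∀ i, Continuous (χ i)) (hχO : ∀ i, tsupport (χ i) ⊆ O)
    {I : Fin m → Cm p → ℝ} (hI : ∀ i, Continuous (I i))
    (hf : ∀ i, ∀ b : Cm p → ℝ, Continuous b →
      intX (fun (e : Chart n X) z => b (y (e.symm z)) * (χ i (e.symm z) * D e z)) =
        ∫ q, b q * I i q) {b₀ : Cm p → ℝ} (hb : Continuous b₀) (hc : HasCompactSupport b₀)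
    (hs : tsupport b₀ ⊆ W) :
    intX (fun (e : Chart n X) z => (tubeF O y b₀ (e.symm z) * ∑ i, χ i (e.symm z)) * D e z) =
      ∫ q, b₀ q * ∑ i, I i q := by
  classical
  have hK : IsCompact {x | x ∈ O ∧ y x ∈ tsupport b₀} := h.proper _ hc hs
  have hw := H413.NU.cont_tubeF h (fun x hx => H413.NU.cont_tube h hx) hb hc hs
  have hw0 : ∀ x, x ∉ {x | x ∈ O ∧ y x ∈ tsupport b₀} → tubeF O y b₀ x = 0 := by
    intro x hx
    unfold tubeF
    split_ifs with h1
    · exact image_eq_zero_of_notMem_tsupport fun h2 => hx ⟨h1, h2⟩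
    · rfl
  have hd : ∀ i, IsDensity (fun (e : Chart n X) z =>
      (tubeF O y b₀ (e.symm z) * χ i (e.symm z)) * D e z) := fun i =>
    dens_of_supp (w := fun x => tubeF O y b₀ x * χ i x) hD (hw.mul (hχ i)) hK.isClosed
      (fun x hx => hx.1) (fun x hx => by rw [hw0 x hx, zero_mul])
  have h1 : intX (fun (e : Chart n X) z => (tubeF O y b₀ (e.symm z) * ∑ i, χ i (e.symm z)) *
      D e z) = ∑ i, intX (fun (e : Chart n X) z =>
      (tubeF O y b₀ (e.symm z) * χ i (e.symm z)) * D e z) := by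
    rw [← INT.intX_sum Finset.univ (fun i _ => hd i)]
    refine INT.intX_congr fun e x hx => ?_
    rw [Finset.mul_sum, Finset.sum_mul]
  have h2 : ∀ i, intX (fun (e : Chart n X) z =>
      (tubeF O y b₀ (e.symm z) * χ i (e.symm z)) * D e z) = ∫ q, b₀ q * I i q := by
    intro i
    rw [← hf i b₀ hb]
    refine INT.intX_congr fun e x hx => ?_
    rw [e.left_inv hx.2]
    by_cases hxO : x ∈ O
    · unfold tubeF
      rw [if_pos hxO]; ring
    · have : χ i x = 0 := image_eq_zero_of_notMem_tsupport fun h3 => hxO (hχO i h3)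
      rw [this]; ring
  rw [h1, Finset.sum_congr rfl fun i _ => h2 i]
  have h3 : (fun q => b₀ q * ∑ i, I i q) = fun q => ∑ i, b₀ q * I i q := by
    funext q; rw [Finset.mul_sum]
  rw [h3, integral_finsetSum]
  intro i _
  exact (hb.mul (hI i)).integrable_of_hasCompactSupport hc.mul_right

end tube

theorem fibPartN : FibPartN := by
  classical
  intro n p d hn X F _ _ _ _ _ _ _ _ _ _ _ _ O y W hT ι hι hιinj hιd y₀ hy₀ hfib A hA hAh ε hε
  subst hn
  have hfib' : ∀ t, ι t ∈ O ∧ y (ι t) = y₀ := fun t => (hfib _).1 ⟨t, rfl⟩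
  set D : Chart (p + d) X → Cm (p + d) → ℝ := fun e z => bdet (rowsY y e z) (A e z) with hDdef
  have hD : DGood O D := dGood_bdet hT hA
  set D₀ : Chart d F → Cm d → ℝ := fun e z => (H368.MFS.pull ι A e z).det.re with hD₀def
  have hD₀ : IsDensity D₀ := (H776.KD.isClosedForm_pullM hA hι).isDensity
  have hloc := fun t : F => loc (p := p) (d := d) hι hT.isOpen hT.hol hfib' hιinj
    (at_chartAt (n := d) t) (at_chartAt (n := p + d) (ι t)) (fderiv_inj hι t (hιd t))
    (fderiv_surj (hT.hol _ (hfib' t).1) (hT.sub _ (hfib' t).1))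
  choose N hNo hNt hNs hN using hloc
  obtain ⟨T, hTc⟩ := isCompact_univ.elim_finite_subcover N hNo
    (fun t _ => mem_iUnion.2 ⟨t, hNt t⟩)
  let m := T.card
  let c : Fin m → F := fun i => (T.equivFin.symm i : F)
  have hc : (univ : Set F) ⊆ ⋃ i, N (c i) := by
    intro x hx
    obtain ⟨t, ht⟩ := mem_iUnion.1 (hTc hx)
    obtain ⟨htT, hxt⟩ := mem_iUnion.1 ht
    exact mem_iUnion.2 ⟨T.equivFin ⟨t, htT⟩, by simpa [c] using hxt⟩
  obtain ⟨f, hf⟩ := PartitionOfUnity.exists_isSubordinate isClosed_univ (fun i => N (c i))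
    (fun i => hNo (c i)) hc
  have hfsum : ∀ t, ∑ i, f i t = 1 := by
    intro t
    have := f.sum_eq_one (mem_univ t)
    rwa [finsum_eq_sum_of_fintype] at this
  have hex := fun i : Fin m => hN (c i) (f i) (f i).continuous (fun t => f.nonneg i t) (hf i)
  choose χ hχc hχ0 hχO hχι hI using hex
  choose I hIc hIf hI0 using fun i => hI i D hD
  choose I' hI'c hI'f hI'0 using fun i => hI i (fun e z => |D e z|) hD.abs
  -- the value at `y₀`
  have hsum0 : ∑ i, I i y₀ = intX D₀ := by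
    have h1 : ∀ i, I i y₀ = ∫ z in (chartAt (Cm d) (c i)).target,
        f i ((chartAt (Cm d) (c i)).symm z) * D₀ (chartAt (Cm d) (c i)) z := by
      intro i
      refine hI0 i D₀ fun t L h1 h2 => ?_
      exact rel hT hA hι hfib' h1 h2 L
    rw [Finset.sum_congr rfl fun i _ => h1 i]
    exact hD₀.isIntegral _ _ _ (fun i => chart_mem_atlas _ _) (fun i => (f i).continuous)
      (fun i => (hf i).trans (hNs (c i))) hfsum
  set Χ : X → ℝ := fun x => ∑ i, χ i x with hΧ
  have hΧc : Continuous Χ := continuous_finsetSum _ fun i _ => hχc i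
  have hΧ0 : ∀ x, 0 ≤ Χ x := fun x => Finset.sum_nonneg fun i _ => hχ0 i x
  have hΧ1 : ∀ t, Χ (ι t) = 1 := by
    intro t
    simp only [hΧ]
    rw [← hfsum t]
    exact Finset.sum_congr rfl fun i _ => hχι i t
  set J := fun q => ∑ i, I i q with hJ
  set J' := fun q => ∑ i, I' i q with hJ'
  have hJc : Continuous J := continuous_finsetSum _ fun i _ => hIc i
  have hJ'c : Continuous J' := continuous_finsetSum _ fun i _ => hI'c i
  set C := |J' y₀| + 1 with hC
  have hCpos : 0 < C := by positivity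
  set δ := min (1 / 2) (ε / (4 * C)) with hδ
  have hδ0 : 0 < δ := lt_min (by norm_num) (by positivity)
  have hδ1 : δ ≤ 1 / 2 := min_le_left _ _
  have hδ2 : 2 * δ * C ≤ ε / 2 := by
    have h1 : δ ≤ ε / (4 * C) := min_le_right _ _
    have h2 : 2 * δ * C ≤ 2 * (ε / (4 * C)) * C := by gcongr
    refine h2.trans (le_of_eq ?_)
    field_simp
    norm_num
  -- a compact neighbourhood
  obtain ⟨r, hr, hrW⟩ := Metric.isOpen_iff.1 hT.openW y₀ hy₀
  have hrW' : Metric.closedBall y₀ (r / 2) ⊆ W := fun q hq =>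
    hrW (lt_of_le_of_lt (Metric.mem_closedBall.1 hq) (by linarith))
  have hKc : IsCompact {x | x ∈ O ∧ y x ∈ Metric.closedBall y₀ (r / 2)} :=
    hT.proper _ (isCompact_closedBall _ _) hrW'
  set Bad : Set X := {x | x ∈ O ∧ y x ∈ Metric.closedBall y₀ (r / 2)} ∩ {x | δ ≤ |Χ x - 1|} with hBad
  have hBadc : IsCompact Bad := hKc.inter_right
    (isClosed_le continuous_const (hΧc.sub continuous_const).abs)
  have hyBad : IsCompact (y '' Bad) := hBadc.image_of_continuousOn fun x hx =>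
    (H413.NU.cont_tube hT hx.1.1).continuousWithinAt
  have hy₀Bad : y₀ ∉ y '' Bad := by
    rintro ⟨x, hx, hxy⟩
    obtain ⟨t, rfl⟩ := (hfib x).2 ⟨hx.1.1, hxy⟩
    have := hx.2
    rw [mem_setOf_eq, hΧ1, sub_self, abs_zero] at this
    linarith
  refine ⟨Metric.ball y₀ (r / 2) ∩ (y '' Bad)ᶜ ∩ ({q | |J q - J y₀| < ε / 2} ∩ {q | J' q < C}),
    ?_, ?_, ?_, ?_⟩
  · exact (Metric.isOpen_ball.inter hyBad.isClosed.isOpen_compl).inter
      ((isOpen_lt (hJc.sub continuous_const).abs continuous_const).inter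
        (isOpen_lt hJ'c continuous_const))
  · refine ⟨⟨Metric.mem_ball_self (by linarith), hy₀Bad⟩, ?_, ?_⟩
    · rw [mem_setOf_eq, sub_self, abs_zero]; linarith
    · have := le_abs_self (J' y₀)
      show J' y₀ < |J' y₀| + 1
      linarith
  · intro q hq
    exact hrW' (Metric.ball_subset_closedBall hq.1.1)
  intro b₀ hb hbc hbs hb0
  have hbW : tsupport b₀ ⊆ W := fun q hq => hrW' (Metric.ball_subset_closedBall (hbs hq).1.1)
  have hV : ∀ q, b₀ q ≠ 0 → |J q - J y₀| ≤ ε / 2 ∧ J' q ≤ C := by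
    intro q hq
    have h1 := hbs (subset_tsupport _ hq)
    exact ⟨h1.2.1.le, h1.2.2.le⟩
  set w := tubeF O y b₀ with hw
  have hwc : Continuous w :=
    H413.NU.cont_tubeF hT (fun x hx => H413.NU.cont_tube hT hx) hb hbc hbW
  have hK : IsCompact {x | x ∈ O ∧ y x ∈ tsupport b₀} := hT.proper _ hbc hbW
  have hw0 : ∀ x, x ∉ {x | x ∈ O ∧ y x ∈ tsupport b₀} → w x = 0 := by
    intro x hx
    simp only [hw, tubeF]
    split_ifs with h1
    · exact image_eq_zero_of_notMem_tsupport fun h2 => hx ⟨h1, h2⟩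
    · rfl
  have hwn : ∀ x, 0 ≤ w x := by
    intro x
    simp only [hw, tubeF]
    split_ifs
    · exact hb0 _
    · exact le_rfl
  have hΧw : ∀ x, w x ≠ 0 → |Χ x - 1| ≤ δ := by
    intro x hx
    have h1 : x ∈ {x | x ∈ O ∧ y x ∈ tsupport b₀} := by
      by_contra h2; exact hx (hw0 x h2)
    have h2 := hbs h1.2
    by_contra h3
    rw [not_le] at h3
    exact h2.1.2 ⟨x, ⟨⟨h1.1, Metric.ball_subset_closedBall h2.1.1⟩, h3.le⟩, rfl⟩
  have d1 : IsDensity (fun (e : Chart (p + d) X) z => w (e.symm z) * D e z) :=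
    dens_of_supp hD hwc hK.isClosed (fun x hx => hx.1) hw0
  have d2 : IsDensity (fun (e : Chart (p + d) X) z => (w (e.symm z) * Χ (e.symm z)) * D e z) :=
    dens_of_supp (w := fun x => w x * Χ x) hD (hwc.mul hΧc) hK.isClosed (fun x hx => hx.1)
      (fun x hx => by rw [hw0 x hx, zero_mul])
  have d3 : IsDensity (fun (e : Chart (p + d) X) z =>
      (w (e.symm z) * Χ (e.symm z)) * |D e z|) :=
    dens_of_supp (w := fun x => w x * Χ x) hD.abs (hwc.mul hΧc) hK.isClosed (fun x hx => hx.1)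
      (fun x hx => by rw [hw0 x hx, zero_mul])
  have f2 : intX (fun (e : Chart (p + d) X) z => (w (e.symm z) * Χ (e.symm z)) * D e z) =
      ∫ q, b₀ q * J q := sum_formula hT hD hχc hχO hIc hIf hb hbc hbW
  have f3 : intX (fun (e : Chart (p + d) X) z => (w (e.symm z) * Χ (e.symm z)) * |D e z|) =
      ∫ q, b₀ q * J' q := sum_formula hT hD.abs hχc hχO hI'c hI'f hb hbc hbW
  have hpt : ∀ x (a : ℝ), |w x * a - (w x * Χ x) * a| ≤ 2 * δ * ((w x * Χ x) * |a|) := by
    intro x a
    by_cases hx : w x = 0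
    · rw [hx]; simp
    · have h1 := hΧw x hx
      have h2 : 1 / 2 ≤ Χ x := by
        have := (abs_le.1 h1).1
        linarith
      have h3 : w x * a - (w x * Χ x) * a = w x * (1 - Χ x) * a := by ring
      rw [h3, abs_mul, abs_mul, abs_of_nonneg (hwn x), abs_sub_comm]
      have h4 : |Χ x - 1| ≤ 2 * δ * Χ x := by nlinarith
      calc w x * |Χ x - 1| * |a| ≤ w x * (2 * δ * Χ x) * |a| := by
            have := hwn x
            gcongr
        _ = 2 * δ * ((w x * Χ x) * |a|) := by ring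
  have g1 : intX (fun (e : Chart (p + d) X) z => w (e.symm z) * D e z) -
      ∫ q, b₀ q * J q ≤ 2 * δ * ∫ q, b₀ q * J' q := by
    rw [← f2, ← f3, ← INT.intX_const_mul, ← INT.intX_sub d1 d2]
    refine INT.intX_mono (d1.sub d2) (d3.const_mul _) fun e x hx => ?_
    exact (le_abs_self _).trans (hpt _ _)
  have g2 : -(2 * δ * ∫ q, b₀ q * J' q) ≤
      intX (fun (e : Chart (p + d) X) z => w (e.symm z) * D e z) - ∫ q, b₀ q * J q := by
    have h5 : -(2 * δ * ∫ q, b₀ q * J' q) = intX (fun (e : Chart (p + d) X) z =>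
        -(2 * δ) * ((w (e.symm z) * Χ (e.symm z)) * |D e z|)) := by
      rw [INT.intX_const_mul, f3]; ring
    rw [h5, ← f2, ← INT.intX_sub d1 d2]
    refine INT.intX_mono (d3.const_mul _) (d1.sub d2) fun e x hx => ?_
    have := (abs_le.1 (hpt (e.symm (e x)) (D e (e x)))).1
    linarith
  have hbi : Integrable b₀ := hb.integrable_of_hasCompactSupport hbc
  have i1 : Integrable fun q => b₀ q * J q :=
    (hb.mul hJc).integrable_of_hasCompactSupport hbc.mul_right
  have i2 : Integrable fun q => b₀ q * J' q :=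
    (hb.mul hJ'c).integrable_of_hasCompactSupport hbc.mul_right
  have hbI : 0 ≤ ∫ q, b₀ q := integral_nonneg hb0
  have g3 : ∫ q, b₀ q * J' q ≤ C * ∫ q, b₀ q := by
    rw [← integral_const_mul]
    refine integral_mono i2 (hbi.const_mul C) fun q => ?_
    show b₀ q * J' q ≤ C * b₀ q
    by_cases hq : b₀ q = 0
    · rw [hq]; simp
    · have := (hV q hq).2
      have := hb0 q
      nlinarith
  have g4 : |(∫ q, b₀ q * J q) - (∫ q, b₀ q) * J y₀| ≤ ε / 2 * ∫ q, b₀ q := by
    have h6 : (∫ q, b₀ q * J q) - (∫ q, b₀ q) * J y₀ = ∫ q, b₀ q * (J q - J y₀) := by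
      rw [← integral_mul_const, ← integral_sub i1 (hbi.mul_const _)]
      congr 1
      funext q; ring
    rw [h6]
    refine (abs_integral_le_integral_abs).trans ?_
    rw [← integral_const_mul]
    have i3 : Integrable fun q => b₀ q * (J q - J y₀) :=
      (hb.mul (hJc.sub continuous_const)).integrable_of_hasCompactSupport hbc.mul_right
    refine integral_mono i3.abs (hbi.const_mul _) fun q => ?_
    show |b₀ q * (J q - J y₀)| ≤ ε / 2 * b₀ q
    rw [abs_mul, abs_of_nonneg (hb0 q)]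
    by_cases hq : b₀ q = 0
    · rw [hq]; simp
    · have := (hV q hq).1
      have := hb0 q
      nlinarith
  have g5 : 2 * δ * ∫ q, b₀ q * J' q ≤ ε / 2 * ∫ q, b₀ q := by
    calc 2 * δ * ∫ q, b₀ q * J' q ≤ 2 * δ * (C * ∫ q, b₀ q) := by gcongr
      _ = 2 * δ * C * ∫ q, b₀ q := by ring
      _ ≤ ε / 2 * ∫ q, b₀ q := by gcongr
  have hJy : J y₀ = intX D₀ := hsum0
  rw [hJy] at g4
  show |intX (fun (e : Chart (p + d) X) z => w (e.symm z) * D e z) -
    (∫ q, b₀ q) * intX D₀| ≤ ε * ∫ q, b₀ q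
  rw [abs_le] at g4 ⊢
  constructor <;> linarith [g4.1, g4.2]

end Vale.Agent.P281.H575.NU
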