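import Mathlib.Analysis.Calculus.InverseFunctionTheorem.ContDiff
import Vale.Agent.P272.K.INT.Global

/-! P281, theorem NU, row N6: coordinates adapted to a submersion and a parametrised fibre. -/

open scoped Manifold ContDiff Topology
open Set Filter MeasureTheory Vale.Agent.P272.K

set_option linter.all false

noncomputable section

namespace Vale.Agent.P281.H575.NU

variable {p d : ℕ}

variable (p d) in
/-- `ℂ^(p+d) = ℂ^p × ℂ^d` -/
def Eq : Cm (p + d) ≃L[ℂ] (Cm p × Cm d) :=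
  LinearEquiv.toContinuousLinearEquiv
    { toFun := fun u => (fun i => u (Fin.castAdd d i), fun i => u (Fin.natAdd p i))
      map_add' := fun u v => rfl
      map_smul' := fun c u => rfl
      invFun := fun q => Fin.append q.1 q.2
      left_inv := fun u => by
        funext i
        refine Fin.addCases (fun j => ?_) (fun j => ?_) i
        · simp
        · simp
      right_inv := fun q => by
        ext i
        · simp
        · simp }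

lemma Eq_apply (u : Cm (p + d)) :
    Eq p d u = (fun i => u (Fin.castAdd d i), fun i => u (Fin.natAdd p i)) := rfl

lemma Eq_symm_apply (q : Cm p × Cm d) : (Eq p d).symm q = Fin.append q.1 q.2 := rfl

/-- `Eq.symm` preserves the volume -/
lemma mp_symm : MeasurePreserving (fun q : Cm p × Cm d => (Eq p d).symm q) volume volume := by
  have h1 := volume_measurePreserving_sumPiEquivProdPi_symm (fun _ : Fin p ⊕ Fin d => ℂ)
  have h2 := volume_measurePreserving_piCongrLeft (fun _ : Fin (p + d) => ℂ) finSumFinEquiv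
  have h3 := h2.comp h1
  convert h3 using 1
  funext q
  funext i
  refine Fin.addCases (fun j => ?_) (fun j => ?_) i
  · show (Fin.append q.1 q.2) (Fin.castAdd d j) = _
    rw [Fin.append_left, Function.comp_apply]
    have := Equiv.piCongrLeft_apply_apply (fun _ : Fin (p + d) => ℂ) finSumFinEquiv
      ((MeasurableEquiv.sumPiEquivProdPi (fun _ : Fin p ⊕ Fin d => ℂ)).symm q) (Sum.inl j)
    rw [finSumFinEquiv_apply_left] at this
    exact this.symm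
  · show (Fin.append q.1 q.2) (Fin.natAdd p j) = _
    rw [Fin.append_right, Function.comp_apply]
    have := Equiv.piCongrLeft_apply_apply (fun _ : Fin (p + d) => ℂ) finSumFinEquiv
      ((MeasurableEquiv.sumPiEquivProdPi (fun _ : Fin p ⊕ Fin d => ℂ)).symm q) (Sum.inr j)
    rw [finSumFinEquiv_apply_right] at this
    exact this.symm

lemma int_Eq {H : Cm (p + d) → ℝ} (hH : Integrable H) :
    ∫ u, H u = ∫ y : Cm p, ∫ v : Cm d, H ((Eq p d).symm (y, v)) := by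
  have hme : MeasurableEmbedding fun q : Cm p × Cm d => (Eq p d).symm q :=
    (Eq p d).symm.toHomeomorph.measurableEmbedding
  rw [← mp_symm.integral_comp hme]
  have h2 : Integrable (fun q : Cm p × Cm d => H ((Eq p d).symm q)) (volume.prod volume) :=
    (mp_symm.integrable_comp_emb hme).2 hH
  exact integral_prod _ h2

/-- real and complex determinants -/
lemma det_real {n : ℕ} {T : Cm n → Cm n} {z : Cm n} (hT : DifferentiableAt ℂ T z) :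
    (fderiv ℝ T z).det = ‖(fderiv ℂ T z).det‖ ^ 2 := by
  have h1 : fderiv ℝ T z = (fderiv ℂ T z).restrictScalars ℝ :=
    (hT.hasFDerivAt.restrictScalars ℝ).fderiv
  have h2 : (fderiv ℝ T z).det =
      LinearMap.det ((fderiv ℂ T z : Cm n →ₗ[ℂ] Cm n).restrictScalars ℝ) := by
    rw [h1]; rfl
  rw [h2, LinearMap.det_restrictScalars, Algebra.norm_complex_apply, Complex.normSq_eq_norm_sq]

/-- `u ↦ L y + K v` -/
def LK (L : Cm p →L[ℂ] Cm (p + d)) (K : Cm d →L[ℂ] Cm (p + d)) : Cm (p + d) →L[ℂ] Cm (p + d) :=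
  (L.coprod K).comp (Eq p d : Cm (p + d) →L[ℂ] Cm p × Cm d)

/-- `u ↦ (T y, v)` -/
def TI (T : Cm p →L[ℂ] Cm p) : Cm (p + d) →L[ℂ] Cm (p + d) :=
  ((Eq p d).symm : (Cm p × Cm d) →L[ℂ] Cm (p + d)).comp
    ((T.prodMap (ContinuousLinearMap.id ℂ (Cm d))).comp
      (Eq p d : Cm (p + d) →L[ℂ] Cm p × Cm d))

lemma det_TI (T : Cm p →L[ℂ] Cm p) : (TI (d := d) T).det = T.det := by
  have h1 := LinearMap.det_conj (LinearMap.prodMap (T : Cm p →ₗ[ℂ] Cm p)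
    (LinearMap.id : Cm d →ₗ[ℂ] Cm d)) (Eq p d).symm.toLinearEquiv
  have h2 := LinearMap.det_prodMap (T : Cm p →ₗ[ℂ] Cm p) (LinearMap.id : Cm d →ₗ[ℂ] Cm d)
  rw [LinearMap.det_id, mul_one] at h2
  rw [h2] at h1
  exact h1

lemma LK_injective {L : Cm p →L[ℂ] Cm (p + d)} {K : Cm d →L[ℂ] Cm (p + d)}
    {N : Cm (p + d) →L[ℂ] Cm p} (hNL : ∀ y, N (L y) = y) (hNK : ∀ v, N (K v) = 0)
    (hK : Function.Injective K) : Function.Injective (LK L K) := by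
  rw [injective_iff_map_eq_zero]
  intro u hu
  have h0 : L (Eq p d u).1 + K (Eq p d u).2 = 0 := hu
  have h1 : (Eq p d u).1 = 0 := by
    have := congrArg N h0
    rwa [map_add, hNL, hNK, add_zero, map_zero] at this
  rw [h1, map_zero, zero_add] at h0
  have h2 : (Eq p d u).2 = 0 := hK (by rw [h0, map_zero])
  have h3 : Eq p d u = 0 := Prod.ext h1 h2
  exact (Eq p d).map_eq_zero_iff.1 h3

/-- the box -/
def Box (y₀ : Cm p) (v₀ : Cm d) (r : ℝ) : Set (Cm (p + d)) :=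
  Eq p d ⁻¹' (Metric.ball y₀ r ×ˢ Metric.ball v₀ r)

lemma isOpen_Box (y₀ : Cm p) (v₀ : Cm d) (r : ℝ) : IsOpen (Box y₀ v₀ r) :=
  (Metric.isOpen_ball.prod Metric.isOpen_ball).preimage (Eq p d).continuous

lemma exists_Box {y₀ : Cm p} {v₀ : Cm d} {P : Cm (p + d) → Prop}
    (h : ∀ᶠ u in 𝓝 ((Eq p d).symm (y₀, v₀)), P u) :
    ∃ r : ℝ, 0 < r ∧ ∀ u ∈ Box y₀ v₀ r, P u := by
  have h1 : ∀ᶠ q in 𝓝 (y₀, v₀), P ((Eq p d).symm q) :=
    (Eq p d).symm.continuous.continuousAt.eventually h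
  obtain ⟨r, hr, h2⟩ := Metric.eventually_nhds_iff_ball.1 h1
  refine ⟨r, hr, fun u hu => ?_⟩
  have h3 : Eq p d u ∈ Metric.ball (y₀, v₀) r := by
    rw [← ball_prod_same]; exact hu
  have := h2 _ h3
  rwa [ContinuousLinearEquiv.symm_apply_apply] at this

lemma base_mem_Box {y₀ : Cm p} {v₀ : Cm d} {r : ℝ} (hr : 0 < r) :
    (Eq p d).symm (y₀, v₀) ∈ Box y₀ v₀ r := by
  unfold Box
  rw [mem_preimage, ContinuousLinearEquiv.apply_symm_apply]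
  exact ⟨Metric.mem_ball_self hr, Metric.mem_ball_self hr⟩

lemma slice_mem_Box {y₀ : Cm p} {v₀ : Cm d} {r : ℝ} (hr : 0 < r) {u : Cm (p + d)}
    (hu : u ∈ Box y₀ v₀ r) : (Eq p d).symm (y₀, (Eq p d u).2) ∈ Box y₀ v₀ r := by
  unfold Box
  rw [mem_preimage, ContinuousLinearEquiv.apply_symm_apply]
  exact ⟨Metric.mem_ball_self hr, hu.2⟩

/-- the parametrisation -/
def Ph (L : Cm p →L[ℂ] Cm (p + d)) (Γ : Cm d → Cm (p + d)) (y₀ : Cm p) (u : Cm (p + d)) :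
    Cm (p + d) := Γ (Eq p d u).2 + L ((Eq p d u).1 - y₀)

/-- the change of the coordinate `y` -/
def Sh (L : Cm p →L[ℂ] Cm (p + d)) (Γ : Cm d → Cm (p + d)) (G : Cm (p + d) → Cm p) (y₀ : Cm p)
    (u : Cm (p + d)) : Cm (p + d) := (Eq p d).symm (G (Ph L Γ y₀ u), (Eq p d u).2)

lemma Ph_base (L : Cm p →L[ℂ] Cm (p + d)) (Γ : Cm d → Cm (p + d)) (y₀ : Cm p) (v : Cm d) :
    Ph L Γ y₀ ((Eq p d).symm (y₀, v)) = Γ v := by
  unfold Ph
  rw [ContinuousLinearEquiv.apply_symm_apply]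
  simp

lemma hasFDerivAt_Ph {L : Cm p →L[ℂ] Cm (p + d)} {Γ : Cm d → Cm (p + d)} {y₀ : Cm p}
    {u : Cm (p + d)} (h : DifferentiableAt ℂ Γ (Eq p d u).2) :
    HasFDerivAt (Ph L Γ y₀) (LK L (fderiv ℂ Γ (Eq p d u).2)) u := by
  have hE : HasFDerivAt (fun u : Cm (p + d) => Eq p d u)
      (Eq p d : Cm (p + d) →L[ℂ] Cm p × Cm d) u := (Eq p d).hasFDerivAt
  have h1 : HasFDerivAt (fun u : Cm (p + d) => Γ (Eq p d u).2)
      ((fderiv ℂ Γ (Eq p d u).2).comp ((ContinuousLinearMap.snd ℂ (Cm p) (Cm d)).comp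
        (Eq p d : Cm (p + d) →L[ℂ] Cm p × Cm d))) u :=
    h.hasFDerivAt.comp u (hE.snd)
  have h2 : HasFDerivAt (fun u : Cm (p + d) => L ((Eq p d u).1 - y₀))
      (L.comp ((ContinuousLinearMap.fst ℂ (Cm p) (Cm d)).comp
        (Eq p d : Cm (p + d) →L[ℂ] Cm p × Cm d))) u :=
    L.hasFDerivAt.comp u (hE.fst.sub_const y₀)
  have h3 := h1.add h2
  refine h3.congr_fderiv ?_
  ext1 w
  show fderiv ℂ Γ (Eq p d u).2 (Eq p d w).2 + L (Eq p d w).1 =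
    L (Eq p d w).1 + fderiv ℂ Γ (Eq p d u).2 (Eq p d w).2
  abel

lemma contDiffAt_Ph {L : Cm p →L[ℂ] Cm (p + d)} {Γ : Cm d → Cm (p + d)} {y₀ : Cm p}
    {u : Cm (p + d)} (h : ContDiffAt ℂ ω Γ (Eq p d u).2) : ContDiffAt ℂ ω (Ph L Γ y₀) u := by
  have hE : ContDiffAt ℂ ω (fun u : Cm (p + d) => Eq p d u) u := (Eq p d).contDiff.contDiffAt
  have h1 : ContDiffAt ℂ ω (fun u : Cm (p + d) => Γ (Eq p d u).2) u :=
    ContDiffAt.comp u h hE.snd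
  have h2 : ContDiffAt ℂ ω (fun u : Cm (p + d) => L ((Eq p d u).1 - y₀)) u :=
    ContDiffAt.comp u L.contDiff.contDiffAt (hE.fst.sub contDiffAt_const)
  exact h1.add h2

lemma hasFDerivAt_Sh {L : Cm p →L[ℂ] Cm (p + d)} {Γ : Cm d → Cm (p + d)} {G : Cm (p + d) → Cm p}
    {y₀ : Cm p} {u : Cm (p + d)} (h : DifferentiableAt ℂ Γ (Eq p d u).2)
    (hG : DifferentiableAt ℂ G (Ph L Γ y₀ u))
    (hNK : (fderiv ℂ G (Ph L Γ y₀ u)).comp (fderiv ℂ Γ (Eq p d u).2) = 0) :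
    HasFDerivAt (Sh L Γ G y₀) (TI ((fderiv ℂ G (Ph L Γ y₀ u)).comp L)) u := by
  have hE : HasFDerivAt (fun u : Cm (p + d) => Eq p d u)
      (Eq p d : Cm (p + d) →L[ℂ] Cm p × Cm d) u := (Eq p d).hasFDerivAt
  have h1 := hG.hasFDerivAt.comp u (hasFDerivAt_Ph (L := L) (y₀ := y₀) h)
  have h2 := h1.prodMk hE.snd
  have h3 := ((Eq p d).symm.hasFDerivAt (x := (G (Ph L Γ y₀ u), (Eq p d u).2))).comp u h2
  refine h3.congr_fderiv ?_
  ext1 w
  have h4 : fderiv ℂ G (Ph L Γ y₀ u) (fderiv ℂ Γ (Eq p d u).2 (Eq p d w).2) = 0 := by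
    have := congrArg (fun T : Cm d →L[ℂ] Cm p => T (Eq p d w).2) hNK
    exact this
  show (Eq p d).symm (fderiv ℂ G (Ph L Γ y₀ u) (L (Eq p d w).1 +
      fderiv ℂ Γ (Eq p d u).2 (Eq p d w).2), (Eq p d w).2) =
    (Eq p d).symm (fderiv ℂ G (Ph L Γ y₀ u) (L (Eq p d w).1), (Eq p d w).2)
  rw [map_add, h4, add_zero]

lemma contDiffAt_Sh {L : Cm p →L[ℂ] Cm (p + d)} {Γ : Cm d → Cm (p + d)} {G : Cm (p + d) → Cm p}
    {y₀ : Cm p} {u : Cm (p + d)} (h : ContDiffAt ℂ ω Γ (Eq p d u).2)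
    (hG : ContDiffAt ℂ ω G (Ph L Γ y₀ u)) : ContDiffAt ℂ ω (Sh L Γ G y₀) u := by
  have hE : ContDiffAt ℂ ω (fun u : Cm (p + d) => Eq p d u) u := (Eq p d).contDiff.contDiffAt
  have h1 : ContDiffAt ℂ ω (fun u => G (Ph L Γ y₀ u)) u :=
    ContDiffAt.comp u hG (contDiffAt_Ph h)
  exact ContDiffAt.comp u (Eq p d).symm.contDiff.contDiffAt (h1.prodMk hE.snd)

/-- the coordinates -/
structure Co (L : Cm p →L[ℂ] Cm (p + d)) (Γ : Cm d → Cm (p + d)) (G : Cm (p + d) → Cm p)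
    (y₀ : Cm p) (v₀ : Cm d) (r : ℝ) where
  r_pos : 0 < r
  P : OpenPartialHomeomorph (Cm (p + d)) (Cm (p + d))
  S : OpenPartialHomeomorph (Cm (p + d)) (Cm (p + d))
  hP : ∀ u, P u = Ph L Γ y₀ u
  hS : ∀ u, S u = Sh L Γ G y₀ u
  srcP : P.source = Box y₀ v₀ r
  srcS : S.source = Box y₀ v₀ r
  cΓ : ∀ u ∈ Box y₀ v₀ r, ContDiffAt ℂ ω Γ (Eq p d u).2
  cG : ∀ u ∈ Box y₀ v₀ r, ContDiffAt ℂ ω G (Ph L Γ y₀ u)
  G0 : ∀ u ∈ Box y₀ v₀ r, G (Γ (Eq p d u).2) = y₀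
  dS : ∀ u ∈ Box y₀ v₀ r, (fderiv ℂ (Sh L Γ G y₀) u).det ≠ 0

theorem exists_co {Γ : Cm d → Cm (p + d)} {G : Cm (p + d) → Cm p} {y₀ : Cm p} {v₀ : Cm d}
    (hΓ : ContDiffAt ℂ ω Γ v₀) (hG : ContDiffAt ℂ ω G (Γ v₀)) (h0 : ∀ᶠ v in 𝓝 v₀, G (Γ v) = y₀)
    (hinj : Function.Injective (fderiv ℂ Γ v₀)) (hsurj : Function.Surjective (fderiv ℂ G (Γ v₀)))
    {Q : Cm (p + d) → Prop} {Q' : Cm d → Prop} (hQ : ∀ᶠ z in 𝓝 (Γ v₀), Q z)
    (hQ' : ∀ᶠ v in 𝓝 v₀, Q' v) :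
    ∃ (L : Cm p →L[ℂ] Cm (p + d)) (r : ℝ), Nonempty (Co L Γ G y₀ v₀ r) ∧
      ∀ u ∈ Box y₀ v₀ r, Q (Ph L Γ y₀ u) ∧ Q' (Eq p d u).2 := by
  obtain ⟨L₀, hL₀⟩ := LinearMap.exists_rightInverse_of_surjective
    (fderiv ℂ G (Γ v₀) : Cm (p + d) →ₗ[ℂ] Cm p) (LinearMap.range_eq_top.2 hsurj)
  set L : Cm p →L[ℂ] Cm (p + d) := LinearMap.toContinuousLinearMap L₀ with hL
  have hNL : ∀ y, fderiv ℂ G (Γ v₀) (L y) = y := fun y =>
    congrArg (fun T : Cm p →ₗ[ℂ] Cm p => T y) hL₀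
  have hNKc : (fderiv ℂ G (Γ v₀)).comp (fderiv ℂ Γ v₀) = 0 := by
    have h1 : HasFDerivAt (fun v => G (Γ v)) ((fderiv ℂ G (Γ v₀)).comp (fderiv ℂ Γ v₀)) v₀ :=
      (hG.differentiableAt (by simp)).hasFDerivAt.comp v₀
        (hΓ.differentiableAt (by simp)).hasFDerivAt
    have h2 : HasFDerivAt (fun v => G (Γ v)) (0 : Cm d →L[ℂ] Cm p) v₀ :=
      (hasFDerivAt_const y₀ v₀).congr_of_eventuallyEq h0
    exact h1.unique h2
  have hNK : ∀ v, fderiv ℂ G (Γ v₀) (fderiv ℂ Γ v₀ v) = 0 := fun v =>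
    congrArg (fun T : Cm d →L[ℂ] Cm p => T v) hNKc
  set u₀ : Cm (p + d) := (Eq p d).symm (y₀, v₀) with hu₀
  have hE0 : Eq p d u₀ = (y₀, v₀) := (Eq p d).apply_symm_apply _
  have hv0 : (Eq p d u₀).2 = v₀ := by rw [hE0]
  have hP0 : Ph L Γ y₀ u₀ = Γ v₀ := Ph_base _ _ _ _
  have hcP : ContDiffAt ℂ ω (Ph L Γ y₀) u₀ := contDiffAt_Ph (by rw [hv0]; exact hΓ)
  have hcS : ContDiffAt ℂ ω (Sh L Γ G y₀) u₀ :=
    contDiffAt_Sh (by rw [hv0]; exact hΓ) (by rw [hP0]; exact hG)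
  have hdP : HasFDerivAt (Ph L Γ y₀) (LK L (fderiv ℂ Γ v₀)) u₀ := by
    have := hasFDerivAt_Ph (L := L) (y₀ := y₀) (u := u₀) (Γ := Γ)
      (by rw [hv0]; exact hΓ.differentiableAt (by simp))
    rwa [hv0] at this
  have hdS : HasFDerivAt (Sh L Γ G y₀) (TI ((fderiv ℂ G (Γ v₀)).comp L)) u₀ := by
    have := hasFDerivAt_Sh (L := L) (y₀ := y₀) (u := u₀) (Γ := Γ) (G := G)
      (by rw [hv0]; exact hΓ.differentiableAt (by simp))
      (by rw [hP0]; exact hG.differentiableAt (by simp)) (by rw [hP0, hv0]; exact hNKc)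
    rwa [hP0] at this
  have hinjP : Function.Injective (LK L (fderiv ℂ Γ v₀)) := LK_injective hNL hNK hinj
  set eP : Cm (p + d) ≃L[ℂ] Cm (p + d) := (LinearEquiv.ofInjectiveEndo
    (LK L (fderiv ℂ Γ v₀) : Cm (p + d) →ₗ[ℂ] Cm (p + d)) hinjP).toContinuousLinearEquiv with heP
  have hTI : (TI ((fderiv ℂ G (Γ v₀)).comp L) : Cm (p + d) →L[ℂ] Cm (p + d)) =
      ((ContinuousLinearEquiv.refl ℂ (Cm (p + d)) : Cm (p + d) ≃L[ℂ] Cm (p + d)) :
        Cm (p + d) →L[ℂ] Cm (p + d)) := by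
    ext1 w
    show (Eq p d).symm (fderiv ℂ G (Γ v₀) (L (Eq p d w).1), (Eq p d w).2) = w
    rw [hNL]
    exact (Eq p d).symm_apply_apply w
  have hdP' : HasFDerivAt (Ph L Γ y₀) (eP : Cm (p + d) →L[ℂ] Cm (p + d)) u₀ := by
    refine hdP.congr_fderiv ?_
    ext1 w
    rfl
  have hdS' : HasFDerivAt (Sh L Γ G y₀)
      ((ContinuousLinearEquiv.refl ℂ (Cm (p + d)) : Cm (p + d) ≃L[ℂ] Cm (p + d)) :
        Cm (p + d) →L[ℂ] Cm (p + d)) u₀ := hdS.congr_fderiv hTI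
  set P₁ := hcP.toOpenPartialHomeomorph (Ph L Γ y₀) hdP' (by simp) with hP₁
  set S₁ := hcS.toOpenPartialHomeomorph (Sh L Γ G y₀) hdS' (by simp) with hS₁
  have e1 : ∀ᶠ u in 𝓝 u₀, u ∈ P₁.source :=
    P₁.open_source.mem_nhds (hcP.mem_toOpenPartialHomeomorph_source hdP' (by simp))
  have e2 : ∀ᶠ u in 𝓝 u₀, u ∈ S₁.source :=
    S₁.open_source.mem_nhds (hcS.mem_toOpenPartialHomeomorph_source hdS' (by simp))
  have cv : ContinuousAt (fun u : Cm (p + d) => (Eq p d u).2) u₀ :=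
    (Eq p d).continuous.snd.continuousAt
  have e3 : ∀ᶠ u in 𝓝 u₀, ContDiffAt ℂ ω Γ (Eq p d u).2 := by
    have h1 : ∀ᶠ v in 𝓝 (Eq p d u₀).2, ContDiffAt ℂ ω Γ v := by
      rw [hv0]; exact hΓ.eventually (by simp)
    exact cv.eventually h1
  have cP : ContinuousAt (Ph L Γ y₀) u₀ := hcP.continuousAt
  have e4 : ∀ᶠ u in 𝓝 u₀, ContDiffAt ℂ ω G (Ph L Γ y₀ u) := by
    have h1 : ∀ᶠ z in 𝓝 (Ph L Γ y₀ u₀), ContDiffAt ℂ ω G z := by
      rw [hP0]; exact hG.eventually (by simp)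
    exact cP.eventually h1
  have e5 : ∀ᶠ u in 𝓝 u₀, G (Γ (Eq p d u).2) = y₀ := by
    have h1 : ∀ᶠ v in 𝓝 (Eq p d u₀).2, G (Γ v) = y₀ := by rw [hv0]; exact h0
    exact cv.eventually h1
  have e6 : ∀ᶠ u in 𝓝 u₀, (fderiv ℂ (Sh L Γ G y₀) u).det ≠ 0 := by
    have h1 : ContinuousAt (fun u => fderiv ℂ (Sh L Γ G y₀) u) u₀ :=
      (hcS.fderiv_right (m := 0) (by simp)).continuousAt
    have h2 : ContinuousAt (fun u => (fderiv ℂ (Sh L Γ G y₀) u).det) u₀ :=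
      (ContinuousLinearMap.continuous_det).continuousAt.comp h1
    refine h2.eventually_ne ?_
    rw [hdS'.fderiv]
    have h9 : ((ContinuousLinearEquiv.refl ℂ (Cm (p + d)) : Cm (p + d) ≃L[ℂ] Cm (p + d)) :
        Cm (p + d) →L[ℂ] Cm (p + d)).det = 1 := LinearMap.det_id
    rw [h9]
    exact one_ne_zero
  have e7 : ∀ᶠ u in 𝓝 u₀, Q (Ph L Γ y₀ u) := by
    have h1 : ∀ᶠ z in 𝓝 (Ph L Γ y₀ u₀), Q z := by rw [hP0]; exact hQ
    exact cP.eventually h1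
  have e8 : ∀ᶠ u in 𝓝 u₀, Q' (Eq p d u).2 := by
    have h1 : ∀ᶠ v in 𝓝 (Eq p d u₀).2, Q' v := by rw [hv0]; exact hQ'
    exact cv.eventually h1
  obtain ⟨r, hr, h⟩ := exists_Box (((((((e1.and e2).and e3).and e4).and e5).and e6).and e7).and e8)
  refine ⟨L, r, ⟨⟨hr, P₁.restrOpen _ (isOpen_Box y₀ v₀ r), S₁.restrOpen _ (isOpen_Box y₀ v₀ r),
    fun u => rfl, fun u => rfl, ?_, ?_, fun u hu => (h u hu).1.1.1.1.1.2,
    fun u hu => (h u hu).1.1.1.1.2, fun u hu => (h u hu).1.1.1.2, fun u hu => (h u hu).1.1.2⟩⟩,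
    fun u hu => ⟨(h u hu).1.2, (h u hu).2⟩⟩
  · rw [OpenPartialHomeomorph.restrOpen_source]
    exact inter_eq_right.2 fun u hu => (h u hu).1.1.1.1.1.1.1
  · rw [OpenPartialHomeomorph.restrOpen_source]
    exact inter_eq_right.2 fun u hu => (h u hu).1.1.1.1.1.1.2

end Vale.Agent.P281.H575.NU
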