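import Vale.Agent.P281.H575.NU.Lo
import Vale.Agent.P299.H956.D1.Pull

/-! P281, theorem NU, row N6: the local statement. -/

open scoped Manifold ContDiff Topology
open Set Filter MeasureTheory Vale.Agent.P272.K
open Vale.Agent.P272.K.INT (IsDensity intX)

set_option linter.all false

noncomputable section

namespace Vale.Agent.P281.H575.NU

section co

variable {p d : ℕ} {L : Cm p →L[ℂ] Cm (p + d)} {Γ : Cm d → Cm (p + d)} {G : Cm (p + d) → Cm p}
  {y₀ : Cm p} {v₀ : Cm d} {r : ℝ} (c : Co L Γ G y₀ v₀ r)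

lemma mem_Box_slice (c : Co L Γ G y₀ v₀ r) {v : Cm d} (hv : v ∈ Metric.ball v₀ r) :
    (Eq p d).symm (y₀, v) ∈ Box y₀ v₀ r := by
  unfold Box
  rw [mem_preimage, ContinuousLinearEquiv.apply_symm_apply]
  exact ⟨Metric.mem_ball_self c.r_pos, hv⟩

include c in
lemma GΓ {v : Cm d} (hv : v ∈ Metric.ball v₀ r) : G (Γ v) = y₀ := by
  have := c.G0 _ (mem_Box_slice c hv)
  rwa [ContinuousLinearEquiv.apply_symm_apply] at this

include c in
lemma S_slice {v : Cm d} (hv : v ∈ Metric.ball v₀ r) :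
    c.S ((Eq p d).symm (y₀, v)) = (Eq p d).symm (y₀, v) := by
  rw [c.hS]
  unfold Sh
  rw [Ph_base, ContinuousLinearEquiv.apply_symm_apply, GΓ c hv]

include c in
lemma slice_mem_target {v : Cm d} (hv : v ∈ Metric.ball v₀ r) :
    (Eq p d).symm (y₀, v) ∈ c.S.target := by
  rw [← S_slice c hv]
  exact c.S.map_source (by rw [c.srcS]; exact mem_Box_slice c hv)

include c in
lemma S_symm_slice {v : Cm d} (hv : v ∈ Metric.ball v₀ r) :
    c.S.symm ((Eq p d).symm (y₀, v)) = (Eq p d).symm (y₀, v) := by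
  have h := c.S.left_inv (by rw [c.srcS]; exact mem_Box_slice c hv :
    (Eq p d).symm (y₀, v) ∈ c.S.source)
  rwa [S_slice c hv] at h

include c in
lemma NK_slice {v : Cm d} (hv : v ∈ Metric.ball v₀ r) :
    (fderiv ℂ G (Γ v)).comp (fderiv ℂ Γ v) = 0 := by
  have hb := mem_Box_slice c hv
  have hΓ : ContDiffAt ℂ ω Γ v := by
    have := c.cΓ _ hb
    rwa [ContinuousLinearEquiv.apply_symm_apply] at this
  have hG : ContDiffAt ℂ ω G (Γ v) := by
    have := c.cG _ hb
    rwa [Ph_base] at this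
  have h1 : HasFDerivAt (fun v => G (Γ v)) ((fderiv ℂ G (Γ v)).comp (fderiv ℂ Γ v)) v :=
    (hG.differentiableAt (by simp)).hasFDerivAt.comp v
      (hΓ.differentiableAt (by simp)).hasFDerivAt
  have h2 : HasFDerivAt (fun v => G (Γ v)) (0 : Cm d →L[ℂ] Cm p) v := by
    refine (hasFDerivAt_const y₀ v).congr_of_eventuallyEq ?_
    filter_upwards [Metric.isOpen_ball.mem_nhds hv] with w hw
    exact GΓ c hw
  exact h1.unique h2

include c in
lemma det_slice {v : Cm d} (hv : v ∈ Metric.ball v₀ r) :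
    (fderiv ℂ (Ph L Γ y₀) ((Eq p d).symm (y₀, v))).det = (LK L (fderiv ℂ Γ v)).det ∧
      (fderiv ℂ (Sh L Γ G y₀) ((Eq p d).symm (y₀, v))).det =
        ((fderiv ℂ G (Γ v)).comp L).det := by
  have hb := mem_Box_slice c hv
  have hΓ := (c.cΓ _ hb).differentiableAt (by simp)
  have hG := (c.cG _ hb).differentiableAt (by simp)
  have h1 := hasFDerivAt_Ph (L := L) (y₀ := y₀) hΓ
  have h2 := hasFDerivAt_Sh (L := L) (y₀ := y₀) hΓ hG (by
    rw [Ph_base, ContinuousLinearEquiv.apply_symm_apply]; exact NK_slice c hv)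
  rw [Ph_base] at h2
  rw [ContinuousLinearEquiv.apply_symm_apply] at h1
  exact ⟨by rw [h1.fderiv], by rw [h2.fderiv, det_TI]⟩

end co

section

variable {p d : ℕ} {X F : Type} [TopologicalSpace X] [T2Space X] [CompactSpace X]
  [ChartedSpace (Cm (p + d)) X] [IsManifold 𝓘(ℂ, Cm (p + d)) ω X] [TopologicalSpace F]
  [T2Space F] [CompactSpace F] [ChartedSpace (Cm d) F] [IsManifold 𝓘(ℂ, Cm d) ω F]

theorem loc {ι : F → X} (hι : ContMDiff 𝓘(ℂ, Cm d) 𝓘(ℂ, Cm (p + d)) ω ι) {O : Set X}
    (hO : IsOpen O) {y : X → Cm p}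
    (hy : ∀ x ∈ O, ContMDiffAt 𝓘(ℂ, Cm (p + d)) 𝓘(ℂ, Cm p) ω y x) {y₀ : Cm p}
    (hfib : ∀ t, ι t ∈ O ∧ y (ι t) = y₀) (hιinj : Function.Injective ι) {t₀ : F}
    {e0 : Chart d F} {e : Chart (p + d) X} (h0 : At e0 t₀) (h : At e (ι t₀))
    (hin : Function.Injective (fderiv ℂ (fun v => e (ι (e0.symm v))) (e0 t₀)))
    (hsu : Function.Surjective (fderiv ℂ (fun z => y (e.symm z)) (e (ι t₀)))) :
    ∃ N : Set F, IsOpen N ∧ t₀ ∈ N ∧ N ⊆ e0.source ∧ ∀ ρ : F → ℝ, Continuous ρ → (∀ t, 0 ≤ ρ t) →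
      tsupport ρ ⊆ N → ∃ χ : X → ℝ, Continuous χ ∧ (∀ x, 0 ≤ χ x) ∧ tsupport χ ⊆ O ∧
      (∀ t, χ (ι t) = ρ t) ∧ ∀ D : Chart (p + d) X → Cm (p + d) → ℝ, DGood O D →
      ∃ I : Cm p → ℝ, Continuous I ∧ (∀ b : Cm p → ℝ, Continuous b →
        intX (fun (e' : Chart (p + d) X) z => b (y (e'.symm z)) * (χ (e'.symm z) * D e' z)) =
          ∫ q, b q * I q) ∧
        ∀ D₀ : Chart d F → Cm d → ℝ, (∀ t (L : Cm p →L[ℂ] Cm (p + d)), At e0 t → At e (ι t) →
          D₀ e0 (e0 t) * ‖((fderiv ℂ (fun z => y (e.symm z)) (e (ι t))).comp L).det‖ ^ 2 =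
          D e (e (ι t)) * ‖(LK L (fderiv ℂ (fun v => e (ι (e0.symm v))) (e0 t))).det‖ ^ 2) →
        I y₀ = ∫ z in e0.target, ρ (e0.symm z) * D₀ e0 z := by
  classical
  set Γ : Cm d → Cm (p + d) := fun v => e (ι (e0.symm v)) with hΓdef
  set G : Cm (p + d) → Cm p := fun z => y (e.symm z) with hGdef
  set v₀ : Cm d := e0 t₀ with hv₀
  have hΓv₀ : Γ v₀ = e (ι t₀) := by rw [hΓdef, hv₀]; simp only; rw [e0.left_inv h0.2]
  have hcΓ : ContDiffAt ℂ ω Γ v₀ := Vale.Agent.P299.H956.rep_hol (hι t₀) h0 h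
  have hcG : ContDiffAt ℂ ω G (Γ v₀) := by
    rw [hΓv₀, ← contMDiffAt_iff_contDiffAt]
    refine ContMDiffAt.comp (e (ι t₀)) (g := y) ?_
      (INT.chart_symm_contMDiffAt h.1 (e.map_source h.2))
    rw [e.left_inv h.2]
    exact hy _ (hfib t₀).1
  have hev := Vale.Agent.P299.H956.nhds_at_map (f := ι) hι.continuous.continuousAt h0 h
  have hGΓ : ∀ᶠ v in 𝓝 v₀, G (Γ v) = y₀ := by
    filter_upwards [hev] with v hv
    show y (e.symm (e (ι (e0.symm v)))) = y₀
    rw [e.left_inv hv.2.2.2]
    exact (hfib _).2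
  have hQ : ∀ᶠ z in 𝓝 (Γ v₀), z ∈ e.target ∧ e.symm z ∈ O := by
    rw [hΓv₀]
    have hq1 : ∀ᶠ z in 𝓝 (e (ι t₀)), z ∈ e.target := e.open_target.mem_nhds (e.map_source h.2)
    refine hq1.and ?_
    refine (e.continuousAt_symm (e.map_source h.2)).eventually ?_
    rw [e.left_inv h.2]
    exact hO.mem_nhds (hfib t₀).1
  have hQ' : ∀ᶠ v in 𝓝 v₀, v ∈ e0.target ∧ ι (e0.symm v) ∈ e.source := by
    filter_upwards [hev] with v hv
    exact ⟨hv.1, hv.2.2.2⟩
  obtain ⟨L, r, ⟨c⟩, hB⟩ := exists_co hcΓ hcG hGΓ hin (by rw [hΓv₀]; exact hsu) hQ hQ'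
  have hQ1 : ∀ u ∈ Box y₀ v₀ r, Ph L Γ y₀ u ∈ e.target := fun u hu => (hB u hu).1.1
  have hQ2 : ∀ u ∈ Box y₀ v₀ r, e.symm (Ph L Γ y₀ u) ∈ O := fun u hu => (hB u hu).1.2
  have hQ3 : ∀ v ∈ Metric.ball v₀ r, v ∈ e0.target ∧ ι (e0.symm v) ∈ e.source := by
    intro v hv
    have := (hB _ (mem_Box_slice c hv)).2
    rwa [ContinuousLinearEquiv.apply_symm_apply] at this
  refine ⟨e0.source ∩ e0 ⁻¹' Metric.ball v₀ r, e0.isOpen_inter_preimage Metric.isOpen_ball,
    ⟨h0.2, Metric.mem_ball_self c.r_pos⟩, inter_subset_left, ?_⟩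
  intro ρ hρ hρ0 hρs
  -- the weight on `ℂ^d`
  set K : Set (Cm d) := e0 '' tsupport ρ with hK
  have hKc : IsCompact K := (isClosed_tsupport ρ).isCompact.image_of_continuousOn
    (e0.continuousOn.mono fun t ht => (hρs ht).1)
  have hKb : K ⊆ Metric.ball v₀ r := by rintro _ ⟨t, ht, rfl⟩; exact (hρs ht).2
  have hKt : K ⊆ e0.target := fun v hv => (hQ3 v (hKb hv)).1
  set ρ' : Cm d → ℝ := fun v => if v ∈ e0.target then ρ (e0.symm v) else 0 with hρ'
  have hρ'0 : ∀ v, v ∉ K → ρ' v = 0 := by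
    intro v hv
    simp only [hρ']
    split_ifs with h1
    · by_contra h2
      exact hv ⟨e0.symm v, subset_tsupport _ h2, e0.right_inv h1⟩
    · rfl
  have hρ'c : Continuous ρ' := by
    rw [continuous_iff_continuousAt]
    intro v
    by_cases hv : v ∈ e0.target
    · have h1 : (fun v => ρ (e0.symm v)) =ᶠ[𝓝 v] ρ' := by
        filter_upwards [e0.open_target.mem_nhds hv] with w hw
        simp only [hρ', if_pos hw]
      exact (hρ.continuousAt.comp (e0.continuousAt_symm hv)).congr h1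
    · have h1 : (fun _ => (0 : ℝ)) =ᶠ[𝓝 v] ρ' := by
        filter_upwards [hKc.isClosed.isOpen_compl.mem_nhds fun h => hv (hKt h)] with w hw
        exact (hρ'0 w hw).symm
      exact continuousAt_const.congr h1
  have hρ'n : ∀ v, 0 ≤ ρ' v := by
    intro v
    simp only [hρ']
    split_ifs
    · exact hρ0 _
    · exact le_rfl
  -- the tube
  obtain ⟨U, V, hU, hV, hyU, hKV, hUV⟩ := generalized_tube_lemma (isCompact_singleton (x := y₀)) hKc
    (c.S.open_target.preimage (Eq p d).symm.continuous) (by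
      rintro ⟨a, v⟩ ⟨ha, hv⟩
      rw [mem_singleton_iff] at ha
      subst ha
      exact slice_mem_target c (hKb hv))
  obtain ⟨s, hs, hsU⟩ := Metric.isOpen_iff.1 hU y₀ (hyU rfl)
  set κ : Cm p → ℝ := fun q => max 0 (1 - ‖q - y₀‖ / (s / 2)) with hκ
  have hκc : Continuous κ := by fun_prop
  have hκ1 : κ y₀ = 1 := by simp [hκ]
  have hκ0 : ∀ q, q ∉ Metric.closedBall y₀ (s / 2) → κ q = 0 := by
    intro q hq
    rw [Metric.mem_closedBall, not_le, dist_eq_norm] at hq
    simp only [hκ]
    apply max_eq_left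
    have : 1 < ‖q - y₀‖ / (s / 2) := by rwa [one_lt_div (by positivity)]
    linarith
  set a : Cm (p + d) → ℝ := fun u => κ (Eq p d u).1 * ρ' (Eq p d u).2 with ha
  have hac : Continuous a :=
    (hκc.comp (Eq p d).continuous.fst).mul (hρ'c.comp (Eq p d).continuous.snd)
  have hKK : IsCompact ((fun q => (Eq p d).symm q) '' (Metric.closedBall y₀ (s / 2) ×ˢ K)) :=
    ((isCompact_closedBall _ _).prod hKc).image (Eq p d).symm.continuous
  have hsup : tsupport a ⊆ (fun q => (Eq p d).symm q) '' (Metric.closedBall y₀ (s / 2) ×ˢ K) := by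
    refine closure_minimal ?_ hKK.isClosed
    intro u hu
    refine ⟨Eq p d u, ⟨?_, ?_⟩, (Eq p d).symm_apply_apply u⟩
    · by_contra h1
      exact hu (by simp only [ha]; rw [hκ0 _ h1, zero_mul])
    · by_contra h1
      exact hu (by simp only [ha]; rw [hρ'0 _ h1, mul_zero])
  have hcs : HasCompactSupport a := hKK.of_isClosed_subset (isClosed_tsupport a) hsup
  have has : tsupport a ⊆ c.S.target := by
    refine hsup.trans ?_
    rintro _ ⟨⟨q, v⟩, ⟨hq, hv⟩, rfl⟩
    refine hUV (show (q, v) ∈ U ×ˢ V from ⟨hsU ?_, hKV hv⟩)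
    exact lt_of_le_of_lt (Metric.mem_closedBall.1 hq) (by linarith)
  have hχc := wt_cont (e := e) c hQ1 hac hcs has
  have hKX := isClosed_K (e := e) c hQ1 hcs has
  have hKR := K_sub (e := e) c hQ1 has
  refine ⟨wt c e a, hχc, ?_, ?_, ?_, ?_⟩
  · intro x
    unfold wt
    split_ifs
    · exact mul_nonneg (le_max_left _ _) (hρ'n _)
    · exact le_rfl
  · refine (closure_minimal ?_ hKX).trans (hKR.trans (Rg_sub c hQ2))
    intro x hx
    by_contra h1
    exact hx (wt_zero c h1)
  · intro t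
    by_cases ht : t ∈ e0.source ∩ e0 ⁻¹' Metric.ball v₀ r
    · have hb := mem_Box_slice c ht.2
      have h1 : Γ (e0 t) = e (ι t) := by simp only [hΓdef]; rw [e0.left_inv ht.1]
      have h2 : c.P ((Eq p d).symm (y₀, e0 t)) = e (ι t) := by rw [c.hP, Ph_base, h1]
      have h3 : ι t ∈ e.source := by
        have := (hQ3 _ ht.2).2
        rwa [e0.left_inv ht.1] at this
      have hps : (Eq p d).symm (y₀, e0 t) ∈ c.P.source := by rw [c.srcP]; exact hb
      have h4 : ι t ∈ Rg c e := ⟨h3, by rw [← h2]; exact c.P.map_source hps⟩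
      have h5 : cx c e (ι t) = (Eq p d).symm (y₀, e0 t) := by
        unfold cx
        rw [← h2, c.P.left_inv hps, S_slice c ht.2]
      unfold wt
      rw [if_pos h4, h5]
      simp only [ha]
      rw [ContinuousLinearEquiv.apply_symm_apply]
      simp only [hρ']
      rw [if_pos (e0.map_source ht.1), e0.left_inv ht.1, hκ1, one_mul]
    · have h1 : ρ t = 0 := image_eq_zero_of_notMem_tsupport fun h => ht (hρs h)
      rw [h1]
      unfold wt
      split_ifs with h2
      · exfalso
        apply ht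
        set u := c.P.symm (e (ι t)) with hu
        have hus : u ∈ c.P.source := c.P.map_target h2.2
        have hub : u ∈ Box y₀ v₀ r := by rw [← c.srcP]; exact hus
        have hPu : c.P u = e (ι t) := c.P.right_inv h2.2
        have hvb : (Eq p d u).2 ∈ Metric.ball v₀ r := hub.2
        have h3 : c.S u = (Eq p d).symm (y₀, (Eq p d u).2) := by
          rw [c.hS]
          unfold Sh
          rw [← c.hP, hPu]
          show (Eq p d).symm (y (e.symm (e (ι t))), (Eq p d u).2) = _
          rw [e.left_inv h2.1, (hfib t).2]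
        have h4 : u = (Eq p d).symm (y₀, (Eq p d u).2) := by
          apply c.S.injOn (by rw [c.srcS]; exact hub)
            (by rw [c.srcS]; exact slice_mem_Box c.r_pos hub)
          rw [h3, S_slice c hvb]
        have h5 : e (ι t) = e (ι (e0.symm (Eq p d u).2)) := by
          rw [← hPu, h4, c.hP, Ph_base, ContinuousLinearEquiv.apply_symm_apply]
        have h6 := hQ3 _ hvb
        have h7 : t = e0.symm (Eq p d u).2 := hιinj (e.injOn h2.1 h6.2 h5)
        rw [h7]
        refine ⟨e0.map_target h6.1, ?_⟩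
        rw [mem_preimage, e0.right_inv h6.1]
        exact hvb
      · rfl
  · intro D hD
    have haq := aq_cont c hQ1 hac has h.1 hQ2 hD
    have haqs := aq_cs (e := e) (D := D) c hcs
    set H : Cm (p + d) → ℝ := fun u => a u * qD c e D u with hH
    have hHK : ∀ q v, v ∉ K → H ((Eq p d).symm (q, v)) = 0 := by
      intro q v hv
      simp only [hH, ha]
      rw [ContinuousLinearEquiv.apply_symm_apply]
      simp only
      rw [hρ'0 v hv, mul_zero, zero_mul]
    refine ⟨fun q => ∫ v in K, H ((Eq p d).symm (q, v)), ?_, ?_, ?_⟩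
    · have hc2 : Continuous (Function.uncurry fun (q : Cm p) (v : Cm d) =>
          H ((Eq p d).symm (q, v))) := haq.comp (Eq p d).symm.continuous
      exact continuous_parametric_integral_of_continuous hc2 hKc
    · intro b hb
      set ab : Cm (p + d) → ℝ := fun u => b (Eq p d u).1 * a u with hab
      have habc : Continuous ab := (hb.comp (Eq p d).continuous.fst).mul hac
      have habs : tsupport ab ⊆ tsupport a := closure_mono (by
        intro u hu
        simp only [Function.mem_support, hab] at hu ⊢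
        exact right_ne_zero_of_mul hu)
      have habcs : HasCompactSupport ab :=
        hcs.of_isClosed_subset (isClosed_tsupport _) habs
      have h1 := int_loc c hQ1 habc habcs (habs.trans has) h.1 hQ2 hD
      have h2 : (fun (e' : Chart (p + d) X) z => wt c e ab (e'.symm z) * D e' z) =
          fun (e' : Chart (p + d) X) z => b (y (e'.symm z)) * (wt c e a (e'.symm z) * D e' z) := by
        funext e' z
        have h3 : wt c e ab (e'.symm z) = b (y (e'.symm z)) * wt c e a (e'.symm z) := by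
          unfold wt
          split_ifs with h4
          · simp only [hab]
            have h5 : (Eq p d (cx c e (e'.symm z))).1 = y (e'.symm z) := by
              unfold cx
              rw [c.S_fst, c.P.right_inv h4.2]
              show y (e.symm (e (e'.symm z))) = _
              rw [e.left_inv h4.1]
            rw [h5]
          · rw [mul_zero]
        rw [h3]; ring
      rw [← h2, h1]
      have h5 : (fun u => ab u * qD c e D u) = fun u => b (Eq p d u).1 * H u := by
        funext u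
        simp only [hab, hH]
        ring
      rw [h5]
      have h6 : Continuous fun u => b (Eq p d u).1 * H u :=
        (hb.comp (Eq p d).continuous.fst).mul haq
      have h7 : HasCompactSupport fun u => b (Eq p d u).1 * H u := haqs.mul_left
      rw [int_Eq (h6.integrable_of_hasCompactSupport h7)]
      refine integral_congr_ae (Filter.Eventually.of_forall fun q => ?_)
      simp only [ContinuousLinearEquiv.apply_symm_apply]
      rw [integral_const_mul]
      congr 1
      symm
      exact setIntegral_eq_integral_of_forall_compl_eq_zero fun v hv => hHK q v hv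
    · intro D₀ hrel
      have h1 : ∫ z in e0.target, ρ (e0.symm z) * D₀ e0 z =
          ∫ z in K, ρ (e0.symm z) * D₀ e0 z := by
        apply setIntegral_eq_of_subset_of_forall_sdiff_eq_zero e0.open_target.measurableSet hKt
        intro v hv
        have h2 := hρ'0 v hv.2
        simp only [hρ', if_pos hv.1] at h2
        rw [h2, zero_mul]
      rw [h1]
      refine setIntegral_congr_fun hKc.isClosed.measurableSet fun v hv => ?_
      have hvb := hKb hv
      have hvt := hKt hv
      simp only [hH, ha, ContinuousLinearEquiv.apply_symm_apply]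
      rw [hκ1, one_mul]
      simp only [hρ']
      rw [if_pos hvt]
      congr 1
      unfold qD
      rw [S_symm_slice c hvb, (det_slice c hvb).1, (det_slice c hvb).2, c.hP, Ph_base]
      have h3 := hrel (e0.symm v) L ⟨h0.1, e0.map_target hvt⟩ ⟨h.1, (hQ3 v hvb).2⟩
      rw [e0.right_inv hvt] at h3
      have h4 : ‖((fderiv ℂ G (Γ v)).comp L).det‖ ^ 2 ≠ 0 := by
        rw [← (det_slice c hvb).2]
        exact pow_ne_zero _ (norm_ne_zero_iff.2 (c.dS _ (mem_Box_slice c hvb)))
      rw [div_eq_iff h4]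
      exact h3.symm

end

end Vale.Agent.P281.H575.NU
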