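import Vale.Agent.P281.H575.NU.Co

/-! P281, theorem NU, row N6: integrals over `X` in the adapted coordinates. -/

open scoped Manifold ContDiff Topology
open Set Filter MeasureTheory Vale.Agent.P272.K
open Vale.Agent.P272.K.INT (IsDensity intX)

set_option linter.all false

noncomputable section

namespace Vale.Agent.P281.H575.NU

variable {p d : ℕ} {X : Type} [TopologicalSpace X] [ChartedSpace (Cm (p + d)) X]

/-- `D` is a density on the open set `O` -/
structure DGood {n : ℕ} {X : Type} [TopologicalSpace X] [ChartedSpace (Cm n) X] (O : Set X)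
    (D : Chart n X → Cm n → ℝ) : Prop where
  cont : ∀ e x, At e x → x ∈ O → ContinuousAt (D e) (e x)
  change : ∀ e e' x, At e x → At e' x → x ∈ O → D e (e x) = D e' (e' x) * ‖(jacM e e' x).det‖ ^ 2

lemma DGood.abs {n : ℕ} {X : Type} [TopologicalSpace X] [ChartedSpace (Cm n) X] {O : Set X}
    {D : Chart n X → Cm n → ℝ} (h : DGood O D) : DGood O (fun e z => |D e z|) where
  cont e x hx hO := (h.cont e x hx hO).abs
  change e e' x hx hx' hO := by
    show |D e (e x)| = |D e' (e' x)| * _
    rw [h.change e e' x hx hx' hO, abs_mul, abs_of_nonneg (by positivity : (0 : ℝ) ≤ _ ^ 2)]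

lemma dens_of_supp {n : ℕ} {X : Type} [TopologicalSpace X] [ChartedSpace (Cm n) X] {O : Set X}
    {D : Chart n X → Cm n → ℝ} (hD : DGood O D) {w : X → ℝ} (hw : Continuous w)
    {K : Set X} (hK : IsClosed K) (hKO : K ⊆ O) (h0 : ∀ x, x ∉ K → w x = 0) :
    IsDensity (fun (e : Chart n X) z => w (e.symm z) * D e z) where
  cont e x hx := by
    by_cases hxO : x ∈ O
    · have h1 : ContinuousAt (fun z => w (e.symm z)) (e x) :=
        hw.continuousAt.comp (e.continuousAt_symm (e.map_source hx.2))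
      exact h1.mul (hD.cont e x hx hxO)
    · have hxK : x ∉ K := fun h => hxO (hKO h)
      have h1 : ∀ᶠ z in 𝓝 (e x), e.symm z ∈ Kᶜ := by
        apply (e.continuousAt_symm (e.map_source hx.2)).eventually_mem
        rw [e.left_inv hx.2]
        exact hK.isOpen_compl.mem_nhds hxK
      have h2 : (fun z => w (e.symm z) * D e z) =ᶠ[𝓝 (e x)] fun _ => 0 := by
        filter_upwards [h1] with z hz
        rw [h0 _ hz, zero_mul]
      exact continuousAt_const.congr h2.symm
  change e e' x hx hx' := by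
    show w (e.symm (e x)) * D e (e x) = (w (e'.symm (e' x)) * D e' (e' x)) * _
    rw [e.left_inv hx.2, e'.left_inv hx'.2]
    by_cases hxO : x ∈ O
    · rw [hD.change e e' x hx hx' hxO]; ring
    · rw [h0 x fun h => hxO (hKO h)]; ring

section

variable {L : Cm p →L[ℂ] Cm (p + d)} {Γ : Cm d → Cm (p + d)} {G : Cm (p + d) → Cm p}
  {y₀ : Cm p} {v₀ : Cm d} {r : ℝ} (c : Co L Γ G y₀ v₀ r) {e : Chart (p + d) X}

include c in
lemma Co.S_fst {u : Cm (p + d)} : (Eq p d (c.S u)).1 = G (c.P u) := by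
  rw [c.hS, c.hP]; unfold Sh
  rw [ContinuousLinearEquiv.apply_symm_apply]

include c in
lemma Co.S_snd {u : Cm (p + d)} : (Eq p d (c.S u)).2 = (Eq p d u).2 := by
  rw [c.hS]; unfold Sh
  rw [ContinuousLinearEquiv.apply_symm_apply]

/-- the region of `X` -/
def Rg (e : Chart (p + d) X) : Set X := {x | x ∈ e.source ∧ e x ∈ c.P.target}

lemma isOpen_Rg : IsOpen (Rg c e) := e.isOpen_inter_preimage c.P.open_target

/-- the coordinates on the region -/
def cx (e : Chart (p + d) X) (x : X) : Cm (p + d) := c.S (c.P.symm (e x))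

lemma cx_cont {x : X} (hx : x ∈ Rg c e) : ContinuousAt (cx c e) x := by
  have h1 : ContinuousAt e x := e.continuousAt hx.1
  have h2 : ContinuousAt c.P.symm (e x) := c.P.continuousAt_symm hx.2
  have h3 : c.P.symm (e x) ∈ c.S.source := by
    rw [c.srcS, ← c.srcP]; exact c.P.map_target hx.2
  exact (ContinuousAt.comp (x := x) (g := fun z => c.S (c.P.symm z))
    ((c.S.continuousAt h3).comp h2) h1)

lemma cx_mem {x : X} (hx : x ∈ Rg c e) : cx c e x ∈ c.S.target := by
  refine c.S.map_source ?_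
  rw [c.srcS, ← c.srcP]; exact c.P.map_target hx.2

open Classical in
/-- the function with weight `a` in the coordinates -/
def wt (e : Chart (p + d) X) (a : Cm (p + d) → ℝ) (x : X) : ℝ :=
  if x ∈ Rg c e then a (cx c e x) else 0

/-- the point with given coordinates -/
def pt (e : Chart (p + d) X) (u : Cm (p + d)) : X := e.symm (c.P (c.S.symm u))

variable (hQ : ∀ u ∈ Box y₀ v₀ r, Ph L Γ y₀ u ∈ e.target)

include hQ in
lemma P_target_sub : c.P.target ⊆ e.target := by
  intro z hz
  have h1 := c.P.map_target hz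
  have h2 := hQ _ (by rw [← c.srcP]; exact h1)
  rw [← c.hP, c.P.right_inv hz] at h2
  exact h2

include hQ in
lemma pt_mem {u : Cm (p + d)} (hu : u ∈ c.S.target) : pt c e u ∈ Rg c e ∧ cx c e (pt c e u) = u ∧
    e (pt c e u) = c.P (c.S.symm u) := by
  have h1 : c.S.symm u ∈ c.P.source := by
    rw [c.srcP, ← c.srcS]; exact c.S.map_target hu
  have h2 : c.P (c.S.symm u) ∈ c.P.target := c.P.map_source h1
  have h3 : c.P (c.S.symm u) ∈ e.target := P_target_sub c hQ h2
  have h4 : e (pt c e u) = c.P (c.S.symm u) := e.right_inv h3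
  refine ⟨⟨e.map_target h3, by rw [h4]; exact h2⟩, ?_, h4⟩
  unfold cx
  rw [h4, c.P.left_inv h1, c.S.right_inv hu]

include hQ in
lemma pt_cont {u : Cm (p + d)} (hu : u ∈ c.S.target) : ContinuousAt (pt c e) u := by
  have h1 : c.S.symm u ∈ c.P.source := by
    rw [c.srcP, ← c.srcS]; exact c.S.map_target hu
  have h3 : c.P (c.S.symm u) ∈ e.target := P_target_sub c hQ (c.P.map_source h1)
  exact ContinuousAt.comp (x := u) (g := fun z => e.symm z)
    (e.continuousAt_symm h3) ((c.P.continuousAt h1).comp (c.S.continuousAt_symm hu))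

lemma pt_cx {x : X} (hx : x ∈ Rg c e) : pt c e (cx c e x) = x := by
  unfold pt cx
  have h3 : c.P.symm (e x) ∈ c.S.source := by
    rw [c.srcS, ← c.srcP]; exact c.P.map_target hx.2
  rw [c.S.left_inv h3, c.P.right_inv hx.2, e.left_inv hx.1]

variable [T2Space X] {a : Cm (p + d) → ℝ} (hac : Continuous a) (hcs : HasCompactSupport a)
  (has : tsupport a ⊆ c.S.target)

include hQ hcs has in
lemma isClosed_K : IsClosed (pt c e '' tsupport a) := by
  have h1 : IsCompact (pt c e '' tsupport a) :=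
    IsCompact.image_of_continuousOn hcs fun u hu => (pt_cont c hQ (has hu)).continuousWithinAt
  exact h1.isClosed

lemma wt_zero {x : X} (hx : x ∉ pt c e '' tsupport a) : wt c e a x = 0 := by
  unfold wt
  split_ifs with h
  · by_contra h1
    exact hx ⟨cx c e x, subset_tsupport _ h1, pt_cx c h⟩
  · rfl

include hQ has in
lemma K_sub : pt c e '' tsupport a ⊆ Rg c e := by
  rintro _ ⟨u, hu, rfl⟩
  exact (pt_mem c hQ (has hu)).1

include hQ hac hcs has in
lemma wt_cont : Continuous (wt c e a) := by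
  classical
  rw [continuous_iff_continuousAt]
  intro x
  by_cases hx : x ∈ Rg c e
  · have h1 : (fun x => a (cx c e x)) =ᶠ[𝓝 x] wt c e a := by
      filter_upwards [(isOpen_Rg c).mem_nhds hx] with y hy
      unfold wt
      rw [if_pos hy]
    exact (hac.continuousAt.comp (cx_cont c hx)).congr h1
  · have h2 : x ∉ pt c e '' tsupport a := fun h => hx (K_sub c hQ has h)
    have h1 : (fun _ => (0 : ℝ)) =ᶠ[𝓝 x] wt c e a := by
      filter_upwards [(isClosed_K c hQ hcs has).isOpen_compl.mem_nhds h2] with y hy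
      exact (wt_zero c hy).symm
    exact continuousAt_const.congr h1

/-- the density in the coordinates -/
def qD (e : Chart (p + d) X) (D : Chart (p + d) X → Cm (p + d) → ℝ) (u : Cm (p + d)) : ℝ :=
  D e (c.P (c.S.symm u)) * ‖(fderiv ℂ (Ph L Γ y₀) (c.S.symm u)).det‖ ^ 2 /
    ‖(fderiv ℂ (Sh L Γ G y₀) (c.S.symm u)).det‖ ^ 2

variable [IsManifold 𝓘(ℂ, Cm (p + d)) ω X] [CompactSpace X] {O : Set X} (he : e ∈ atlas (Cm (p + d)) X)
  (hO : ∀ u ∈ Box y₀ v₀ r, e.symm (Ph L Γ y₀ u) ∈ O)
  {D : Chart (p + d) X → Cm (p + d) → ℝ} (hD : DGood O D)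

include hO in
lemma Rg_sub : Rg c e ⊆ O := by
  intro x hx
  have h1 := hO (c.P.symm (e x)) (by rw [← c.srcP]; exact c.P.map_target hx.2)
  rw [← c.hP, c.P.right_inv hx.2, e.left_inv hx.1] at h1
  exact h1

include hQ he hO hD in
lemma qD_cont {u : Cm (p + d)} (hu : u ∈ c.S.target) : ContinuousAt (qD c e D) u := by
  have h1 : c.S.symm u ∈ Box y₀ v₀ r := by rw [← c.srcS]; exact c.S.map_target hu
  have h2 : ContinuousAt c.S.symm u := c.S.continuousAt_symm hu
  have hP : ContDiffAt ℂ ω (Ph L Γ y₀) (c.S.symm u) := contDiffAt_Ph (c.cΓ _ h1)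
  have hS : ContDiffAt ℂ ω (Sh L Γ G y₀) (c.S.symm u) := contDiffAt_Sh (c.cΓ _ h1) (c.cG _ h1)
  have hP' : ContinuousAt (fun w => fderiv ℂ (Ph L Γ y₀) w) (c.S.symm u) :=
    (hP.fderiv_right (m := 0) (by simp)).continuousAt
  have hS' : ContinuousAt (fun w => fderiv ℂ (Sh L Γ G y₀) w) (c.S.symm u) :=
    (hS.fderiv_right (m := 0) (by simp)).continuousAt
  have h3 : ContinuousAt (fun u => ‖(fderiv ℂ (Ph L Γ y₀) (c.S.symm u)).det‖ ^ 2) u :=
    ((ContinuousLinearMap.continuous_det.continuousAt.comp (hP'.comp h2)).norm).pow 2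
  have h4 : ContinuousAt (fun u => ‖(fderiv ℂ (Sh L Γ G y₀) (c.S.symm u)).det‖ ^ 2) u :=
    ((ContinuousLinearMap.continuous_det.continuousAt.comp (hS'.comp h2)).norm).pow 2
  have h5 : ContinuousAt (fun u => D e (c.P (c.S.symm u))) u := by
    obtain ⟨hR, _, hE⟩ := pt_mem c hQ hu
    have h6 : ContinuousAt (D e) (e (pt c e u)) :=
      hD.cont e (pt c e u) ⟨he, hR.1⟩ (Rg_sub c hO hR)
    rw [hE] at h6
    have h7 : c.S.symm u ∈ c.P.source := by rw [c.srcP]; exact h1
    exact ContinuousAt.comp (x := u) (g := D e) (f := fun u => c.P (c.S.symm u)) h6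
      ((c.P.continuousAt h7).comp h2)
  exact (h5.mul h3).div h4 (pow_ne_zero _ (norm_ne_zero_iff.2 (c.dS _ h1)))

include hQ hac has he hO hD in
lemma aq_cont : Continuous fun u => a u * qD c e D u := by
  apply continuous_of_tsupport
  intro u hu
  have h1 : u ∈ tsupport a := closure_mono (by
    intro w hw
    simp only [Function.mem_support] at hw ⊢
    exact left_ne_zero_of_mul hw) hu
  exact hac.continuousAt.mul (qD_cont c hQ he hO hD (has h1))

include hcs in
lemma aq_cs : HasCompactSupport fun u => a u * qD c e D u := by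
  exact hcs.mul_right

include hQ hac hcs has he hO hD in
theorem int_loc : intX (fun (e' : Chart (p + d) X) z => wt c e a (e'.symm z) * D e' z) =
    ∫ u, a u * qD c e D u := by
  classical
  have hK := isClosed_K c hQ hcs has
  have hKR := K_sub (e := e) c hQ has
  have h0 : ∀ x, x ∉ pt c e '' tsupport a → wt c e a x = 0 := fun x hx => wt_zero c hx
  have hdens := dens_of_supp hD (wt_cont (e := e) c hQ hac hcs has) hK
    (hKR.trans (Rg_sub c hO)) h0
  rw [INT.intX_of_support hdens he hK (fun x hx => (hKR hx).1) (fun e' x hx hxK => by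
    rw [e'.left_inv hx.2, h0 x hxK, zero_mul])]
  have hPt := P_target_sub (e := e) c hQ
  have e1 : ∫ z in e.target, wt c e a (e.symm z) * D e z =
      ∫ z in c.P.target, wt c e a (e.symm z) * D e z := by
    apply setIntegral_eq_of_subset_of_forall_sdiff_eq_zero e.open_target.measurableSet hPt
    intro z hz
    have : e.symm z ∉ Rg c e := fun h => hz.2 (by
      have := h.2; rwa [e.right_inv hz.1] at this)
    unfold wt
    rw [if_neg this, zero_mul]
  have hPi : c.P '' Box y₀ v₀ r = c.P.target := by rw [← c.srcP]; exact c.P.image_source_eq_target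
  have hSi : c.S '' Box y₀ v₀ r = c.S.target := by rw [← c.srcS]; exact c.S.image_source_eq_target
  have hPd : ∀ u ∈ Box y₀ v₀ r, HasFDerivWithinAt c.P (fderiv ℝ (Ph L Γ y₀) u) (Box y₀ v₀ r) u := by
    intro u hu
    have h1 : DifferentiableAt ℝ (Ph L Γ y₀) u :=
      ((contDiffAt_Ph (c.cΓ u hu)).differentiableAt (by simp)).restrictScalars ℝ
    have h2 : (c.P : Cm (p + d) → Cm (p + d)) = Ph L Γ y₀ := funext c.hP
    rw [h2]
    exact h1.hasFDerivAt.hasFDerivWithinAt
  have hSd : ∀ u ∈ Box y₀ v₀ r, HasFDerivWithinAt c.S (fderiv ℝ (Sh L Γ G y₀) u)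
      (Box y₀ v₀ r) u := by
    intro u hu
    have h1 : DifferentiableAt ℝ (Sh L Γ G y₀) u :=
      ((contDiffAt_Sh (c.cΓ u hu) (c.cG u hu)).differentiableAt (by simp)).restrictScalars ℝ
    have h2 : (c.S : Cm (p + d) → Cm (p + d)) = Sh L Γ G y₀ := funext c.hS
    rw [h2]
    exact h1.hasFDerivAt.hasFDerivWithinAt
  have hPinj : InjOn c.P (Box y₀ v₀ r) := by rw [← c.srcP]; exact c.P.injOn
  have hSinj : InjOn c.S (Box y₀ v₀ r) := by rw [← c.srcS]; exact c.S.injOn
  have e2 := integral_image_eq_integral_abs_det_fderiv_smul volume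
    (isOpen_Box y₀ v₀ r).measurableSet hPd hPinj (fun z => wt c e a (e.symm z) * D e z)
  have e3 := integral_image_eq_integral_abs_det_fderiv_smul volume
    (isOpen_Box y₀ v₀ r).measurableSet hSd hSinj (fun u => a u * qD c e D u)
  have e4 : ∫ u, a u * qD c e D u = ∫ u in c.S.target, a u * qD c e D u := by
    symm
    apply setIntegral_eq_integral_of_forall_compl_eq_zero
    intro u hu
    have : u ∉ tsupport a := fun h => hu (has h)
    rw [image_eq_zero_of_notMem_tsupport this, zero_mul]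
  rw [e1, ← hPi, e2, e4, ← hSi, e3]
  refine setIntegral_congr_fun (isOpen_Box y₀ v₀ r).measurableSet fun u hu => ?_
  have hus : u ∈ c.S.source := by rw [c.srcS]; exact hu
  have hup : u ∈ c.P.source := by rw [c.srcP]; exact hu
  have h5 : c.S.symm (c.S u) = u := c.S.left_inv hus
  have h6 := pt_mem c hQ (c.S.map_source hus)
  have h7 : pt c e (c.S u) = e.symm (c.P u) := by unfold pt; rw [h5]
  rw [h7] at h6
  have h8 : wt c e a (e.symm (c.P u)) = a (c.S u) := by
    unfold wt; rw [if_pos h6.1, h6.2.1]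
  have dP := det_real ((contDiffAt_Ph (L := L) (y₀ := y₀) (c.cΓ u hu)).differentiableAt (by simp))
  have dS := det_real ((contDiffAt_Sh (c.cΓ u hu) (c.cG u hu)).differentiableAt (by simp))
  show |(fderiv ℝ (Ph L Γ y₀) u).det| * (wt c e a (e.symm (c.P u)) * D e (c.P u)) =
    |(fderiv ℝ (Sh L Γ G y₀) u).det| * (a (c.S u) * qD c e D (c.S u))
  unfold qD
  rw [h5, h8, dP, dS, abs_of_nonneg (by positivity), abs_of_nonneg (by positivity)]
  have h9 : ‖(fderiv ℂ (Sh L Γ G y₀) u).det‖ ^ 2 ≠ 0 :=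
    pow_ne_zero _ (norm_ne_zero_iff.2 (c.dS u hu))
  generalize ‖(fderiv ℂ (Sh L Γ G y₀) u).det‖ ^ 2 = s at h9 ⊢
  field_simp

end

end Vale.Agent.P281.H575.NU
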