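import Vale.Agent.P281.H575.NU.Lc
import Vale.Agent.P299.H956.D1.Bridge
import Vale.Agent.P281.H413.NU.Bd
import Vale.Agent.P281.H185.Fr
import Vale.Agent.P281.H776.KD.FK

/-! P281, theorem NU, row N6: the bordered determinant in the adapted coordinates. -/

open scoped Manifold ContDiff Topology
open Set Filter MeasureTheory Vale.Agent.P272.K
open Vale.Agent.P272.K.INT (IsDensity intX IsClosedForm)
open Vale.Agent.P281.H342.NU Vale.Agent.P299 Vale.Agent.P299.H956 Vale.Agent.P281

set_option linter.all false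

noncomputable section

namespace Vale.Agent.P281.H575.NU

section mat

variable {n p : ℕ}

lemma bdet_conj' (b : Matrix (Fin p) (Fin n) ℂ) (A P : Matrix (Fin n) (Fin n) ℂ) :
    bdet (b * P) (P.transpose * A * P.map (starRingEnd ℂ)) = ‖P.det‖ ^ 2 * bdet b A := by
  have h1 : Matrix.fromBlocks (P.transpose * A * P.map (starRingEnd ℂ)).transpose
      (b * P).conjTranspose (b * P) (0 : Matrix (Fin p) (Fin p) ℂ) =
      Matrix.fromBlocks P.conjTranspose 0 0 (1 : Matrix (Fin p) (Fin p) ℂ) *
        Matrix.fromBlocks A.transpose b.conjTranspose b 0 *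
        Matrix.fromBlocks P 0 0 (1 : Matrix (Fin p) (Fin p) ℂ) := by
    rw [Matrix.fromBlocks_multiply, Matrix.fromBlocks_multiply]
    simp only [Matrix.zero_mul, Matrix.mul_zero, add_zero, zero_add, Matrix.one_mul,
      Matrix.mul_one, Matrix.conjTranspose_mul]
    congr 1
    rw [Matrix.transpose_mul, Matrix.transpose_mul, Matrix.transpose_transpose, ← Matrix.mul_assoc]
    rfl
  unfold bdet
  rw [h1, Matrix.det_mul, Matrix.det_mul, Matrix.det_fromBlocks_zero₁₂,
    Matrix.det_fromBlocks_zero₁₂, Matrix.det_one, mul_one, mul_one, Matrix.det_conjTranspose]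
  have h2 : (-1 : ℂ) ^ p * (star P.det * (Matrix.fromBlocks A.transpose b.conjTranspose b
      (0 : Matrix (Fin p) (Fin p) ℂ)).det * P.det) =
      ((‖P.det‖ ^ 2 : ℝ) : ℂ) * ((-1 : ℂ) ^ p * (Matrix.fromBlocks A.transpose b.conjTranspose b
      (0 : Matrix (Fin p) (Fin p) ℂ)).det) := by
    have h3 : star P.det * P.det = ((‖P.det‖ ^ 2 : ℝ) : ℂ) := by
      rw [← Complex.normSq_eq_norm_sq, Complex.normSq_eq_conj_mul_self]
      rfl
    rw [← h3]; ring
  rw [h2, Complex.re_ofReal_mul]

lemma bdet_continuous {α : Type*} [TopologicalSpace α] {b : α → Matrix (Fin p) (Fin n) ℂ}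
    {A : α → Matrix (Fin n) (Fin n) ℂ} {x : α} (hb : ContinuousAt b x) (hA : ContinuousAt A x) :
    ContinuousAt (fun z => bdet (b z) (A z)) x := by
  have h0 : Continuous fun q : Matrix (Fin p) (Fin n) ℂ × Matrix (Fin n) (Fin n) ℂ =>
      Matrix.fromBlocks q.2.transpose q.1.conjTranspose q.1 (0 : Matrix (Fin p) (Fin p) ℂ) :=
    Continuous.matrix_fromBlocks continuous_snd.matrix_transpose
      continuous_fst.matrix_conjTranspose continuous_fst continuous_const
  have h2 := Continuous.matrix_det h0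
  have h3 : Continuous fun q : Matrix (Fin p) (Fin n) ℂ × Matrix (Fin n) (Fin n) ℂ =>
      (-1 : ℂ) ^ p * (Matrix.fromBlocks q.2.transpose q.1.conjTranspose q.1
        (0 : Matrix (Fin p) (Fin p) ℂ)).det := continuous_const.mul h2
  have h1 : Continuous fun q : Matrix (Fin p) (Fin n) ℂ × Matrix (Fin n) (Fin n) ℂ =>
      bdet q.1 q.2 := Complex.continuous_re.comp h3
  exact ContinuousAt.comp (g := fun q : Matrix (Fin p) (Fin n) ℂ × Matrix (Fin n) (Fin n) ℂ =>
      bdet q.1 q.2) (f := fun z => (b z, A z)) h1.continuousAt (hb.prodMk hA)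

end mat

section dens

variable {n p : ℕ} {X : Type} [TopologicalSpace X] [ChartedSpace (Cm n) X]
  [IsManifold 𝓘(ℂ, Cm n) ω X] {O : Set X} {y : X → Cm p} {W : Set (Cm p)}

lemma rowsY_eq (h : IsTube (n := n) O y W) {e : Chart n X} {x : X} (hx : At e x) (hO : x ∈ O) :
    rowsY y e (e x) = LinearMap.toMatrix'
      (fderiv ℂ (fun z => y (e.symm z)) (e x) : Cm n →ₗ[ℂ] Cm p) := by
  have hd : DifferentiableAt ℂ (fun z => y (e.symm z)) (e x) :=
    (H413.NU.hol_chart h hx hO).differentiableAt (by simp)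
  ext a i
  rw [LinearMap.toMatrix'_apply]
  show fderiv ℂ (fun w => y (e.symm w) a) (e x) (Pi.single i 1) = _
  have h1 : fderiv ℂ (fun w => y (e.symm w) a) (e x) =
      (ContinuousLinearMap.proj a).comp (fderiv ℂ (fun z => y (e.symm z)) (e x)) :=
    (hasFDerivAt_pi'.1 hd.hasFDerivAt a).fderiv
  rw [h1]
  show fderiv ℂ (fun z => y (e.symm z)) (e x) (Pi.single i 1) a =
    fderiv ℂ (fun z => y (e.symm z)) (e x) _ a
  congr 2

lemma rowsY_change (h : IsTube (n := n) O y W) {e e' : Chart n X} {x : X} (hx : At e x)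
    (hx' : At e' x) (hO : x ∈ O) : rowsY y e (e x) = rowsY y e' (e' x) * jacM e e' x := by
  rw [rowsY_eq h hx hO, rowsY_eq h hx' hO]
  have h1 : (fun z => y (e.symm z)) =ᶠ[𝓝 (e x)] fun z => y (e'.symm (e' (e.symm z))) := by
    have h2 : ∀ᶠ z in 𝓝 (e x), e.symm z ∈ e'.source := by
      refine (e.continuousAt_symm (e.map_source hx.2)).eventually ?_
      rw [e.left_inv hx.2]
      exact e'.open_source.mem_nhds hx'.2
    filter_upwards [h2] with z hz
    rw [e'.left_inv hz]
  have hd' : DifferentiableAt ℂ (fun z => y (e'.symm z)) (e' (e.symm (e x))) := by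
    rw [e.left_inv hx.2]
    exact (H413.NU.hol_chart h hx' hO).differentiableAt (by simp)
  have hT : DifferentiableAt ℂ (fun z => e' (e.symm z)) (e x) :=
    (INT.transition_contDiffAt hx hx').differentiableAt (by simp)
  have h3 : fderiv ℂ (fun z => y (e.symm z)) (e x) =
      (fderiv ℂ (fun z => y (e'.symm z)) (e' x)).comp
        (fderiv ℂ (fun z => e' (e.symm z)) (e x)) := by
    rw [h1.fderiv_eq]
    have := fderiv_comp (e x) hd' hT
    rw [e.left_inv hx.2] at this
    exact this
  rw [h3]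
  have h4 : (fderiv ℂ (fun z => e' (e.symm z)) (e x) : Cm n →ₗ[ℂ] Cm n) =
      Matrix.toLin' (jacM e e' x) := by
    apply LinearMap.ext
    intro v
    rw [Matrix.toLin'_apply]
    exact jmR_mulVec hT v
  show LinearMap.toMatrix' ((fderiv ℂ (fun z => y (e'.symm z)) (e' x) : Cm n →ₗ[ℂ] Cm p) ∘ₗ
    (fderiv ℂ (fun z => e' (e.symm z)) (e x) : Cm n →ₗ[ℂ] Cm n)) = _
  rw [LinearMap.toMatrix'_comp, h4, LinearMap.toMatrix'_toLin']

/-- the bordered determinant is a density -/
theorem dGood_bdet (h : IsTube (n := n) O y W) {A : D.FormM n X} (hA : IsClosedForm A) :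
    DGood O fun (e : Chart n X) z => bdet (rowsY y e z) (A e z) where
  cont e x hx hO := by
    apply bdet_continuous
    · have h1 : ContDiffAt ℂ ω (fun z => y (e.symm z)) (e x) := H413.NU.hol_chart h hx hO
      have h2 : ∀ᶠ z in 𝓝 (e x), z ∈ e.target ∧ e.symm z ∈ O := by
        have h3 : ∀ᶠ z in 𝓝 (e x), z ∈ e.target := e.open_target.mem_nhds (e.map_source hx.2)
        refine h3.and ?_
        refine (e.continuousAt_symm (e.map_source hx.2)).eventually ?_
        rw [e.left_inv hx.2]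
        exact h.isOpen.mem_nhds hO
      have h4 : (fun z => rowsY y e z) =ᶠ[𝓝 (e x)] fun z => LinearMap.toMatrix'
          (fderiv ℂ (fun z => y (e.symm z)) z : Cm n →ₗ[ℂ] Cm p) := by
        filter_upwards [h2] with z hz
        have := rowsY_eq h (e := e) (x := e.symm z) ⟨hx.1, e.map_target hz.1⟩ hz.2
        rwa [e.right_inv hz.1] at this
      refine ContinuousAt.congr ?_ h4.symm
      have h5 : ContinuousAt (fun z => fderiv ℂ (fun z => y (e.symm z)) z) (e x) :=
        (h1.fderiv_right (m := 0) (by simp)).continuousAt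
      refine continuousAt_pi.2 fun a => continuousAt_pi.2 fun i => ?_
      have h6 : (fun z => LinearMap.toMatrix'
          (fderiv ℂ (fun z => y (e.symm z)) z : Cm n →ₗ[ℂ] Cm p) a i) =
          fun z => fderiv ℂ (fun z => y (e.symm z)) z (Pi.single i 1) a := by
        funext z
        rw [LinearMap.toMatrix'_apply]
        show fderiv ℂ (fun z => y (e.symm z)) z _ a = _
        congr 2
      rw [h6]
      exact (continuousAt_pi.1 (h5.clm_apply continuousAt_const) a)
    · exact continuousAt_pi.2 fun i => continuousAt_pi.2 fun j =>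
        (hA.smooth e x hx i j).continuousAt
  change e e' x hx hx' hO := by
    show bdet (rowsY y e (e x)) (A e (e x)) = _
    rw [rowsY_change h hx hx' hO, hA.form e e' x hx hx', bdet_conj']
    ring

end dens

section rel

variable {p d : ℕ} {X F : Type} [TopologicalSpace X]
  [ChartedSpace (Cm (p + d)) X] [IsManifold 𝓘(ℂ, Cm (p + d)) ω X] [TopologicalSpace F]
  [ChartedSpace (Cm d) F] [IsManifold 𝓘(ℂ, Cm d) ω F]
  {O : Set X} {y : X → Cm p} {W : Set (Cm p)}

theorem rel (h : IsTube (n := p + d) O y W) {A : D.FormM (p + d) X} (hA : IsClosedForm A)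
    {ι : F → X} (hι : ContMDiff 𝓘(ℂ, Cm d) 𝓘(ℂ, Cm (p + d)) ω ι) {y₀ : Cm p}
    (hfib : ∀ t, ι t ∈ O ∧ y (ι t) = y₀) {e0 : Chart d F} {e : Chart (p + d) X} {t : F}
    (h0 : At e0 t) (h' : At e (ι t)) (L : Cm p →L[ℂ] Cm (p + d)) :
    (H368.MFS.pull ι A e0 (e0 t)).det.re *
        ‖((fderiv ℂ (fun z => y (e.symm z)) (e (ι t))).comp L).det‖ ^ 2 =
      bdet (rowsY y e (e (ι t))) (A e (e (ι t))) *
        ‖(LK L (fderiv ℂ (fun v => e (ι (e0.symm v))) (e0 t))).det‖ ^ 2 := by
  set N := fderiv ℂ (fun z => y (e.symm z)) (e (ι t)) with hN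
  set K := fderiv ℂ (fun v => e (ι (e0.symm v))) (e0 t) with hK
  set b := rowsY y e (e (ι t)) with hb
  set k := H368.MFS.jacI ι e0 e t with hk
  set l := LinearMap.toMatrix' (L : Cm p →ₗ[ℂ] Cm (p + d)) with hl
  have hbN : b = LinearMap.toMatrix' (N : Cm (p + d) →ₗ[ℂ] Cm p) := rowsY_eq h h' (hfib t).1
  have hrep : DifferentiableAt ℂ (fun v => e (ι (e0.symm v))) (e0 t) := rep_diff (hι t) h0 h'
  have hKk : (K : Cm d →ₗ[ℂ] Cm (p + d)) = Matrix.toLin' k := by
    apply LinearMap.ext
    intro v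
    rw [Matrix.toLin'_apply]
    exact jmR_mulVec hrep v
  have hkK : LinearMap.toMatrix' (K : Cm d →ₗ[ℂ] Cm (p + d)) = k := by
    rw [hKk, LinearMap.toMatrix'_toLin']
  -- `b k = 0`
  have hNK : N.comp K = 0 := by
    have hd : DifferentiableAt ℂ (fun z => y (e.symm z)) (e (ι (e0.symm (e0 t)))) := by
      rw [e0.left_inv h0.2]
      exact (H413.NU.hol_chart h h' (hfib t).1).differentiableAt (by simp)
    have h1 : HasFDerivAt (fun v => y (e.symm (e (ι (e0.symm v))))) (N.comp K) (e0 t) := by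
      have := hd.hasFDerivAt.comp (e0 t) hrep.hasFDerivAt
      rw [e0.left_inv h0.2] at this
      exact this
    have h2 : HasFDerivAt (fun v => y (e.symm (e (ι (e0.symm v))))) (0 : Cm d →L[ℂ] Cm p)
        (e0 t) := by
      refine (hasFDerivAt_const y₀ (e0 t)).congr_of_eventuallyEq ?_
      filter_upwards [nhds_at_map (f := ι) hι.continuous.continuousAt h0 h'] with v hv
      rw [e.left_inv hv.2.2.2]
      exact (hfib _).2
    exact h1.unique h2
  have hbk : b * k = 0 := by
    rw [hbN, ← hkK, ← LinearMap.toMatrix'_comp]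
    have : (N : Cm (p + d) →ₗ[ℂ] Cm p) ∘ₗ (K : Cm d →ₗ[ℂ] Cm (p + d)) = 0 := by
      apply LinearMap.ext
      intro v
      exact congrArg (fun T : Cm d →L[ℂ] Cm p => T v) hNK
    rw [this, map_zero]
  have hd1 : (N.comp L).det = (b * l).det := by
    show LinearMap.det ((N : Cm (p + d) →ₗ[ℂ] Cm p) ∘ₗ (L : Cm p →ₗ[ℂ] Cm (p + d))) = _
    rw [← LinearMap.det_toMatrix', LinearMap.toMatrix'_comp, hbN]
  have hd2 : (LK L K).det =
      ((Matrix.fromCols l k).submatrix id finSumFinEquiv.symm).det := by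
    show LinearMap.det (LK L K : Cm (p + d) →ₗ[ℂ] Cm (p + d)) = _
    rw [← LinearMap.det_toMatrix']
    congr 1
    ext i j
    rw [LinearMap.toMatrix'_apply, Matrix.submatrix_apply]
    have hs : (fun j' => if j' = j then (1 : ℂ) else 0) = Pi.single j 1 := by
      funext j'
      simp [Pi.single_apply]
    refine Fin.addCases (fun a => ?_) (fun a => ?_) j
    · have h3 : Eq p d (Pi.single (Fin.castAdd d a) 1) = (Pi.single a 1, 0) := by
        rw [Eq_apply]
        refine Prod.ext ?_ ?_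
        · funext c
          simp [Pi.single_apply]
        · funext c
          simp [Pi.single_apply, Fin.ext_iff]
          omega
      have h4 : LK L K (Pi.single (Fin.castAdd d a) 1) = L (Pi.single a 1) := by
        show L (Eq p d (Pi.single (Fin.castAdd d a) 1)).1 +
          K (Eq p d (Pi.single (Fin.castAdd d a) 1)).2 = _
        rw [h3]
        simp
      rw [finSumFinEquiv_symm_apply_castAdd, Matrix.fromCols_apply_inl, hl,
        LinearMap.toMatrix'_apply]
      show LK L K _ i = L _ i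
      have h5 : (fun j' => if j' = Fin.castAdd d a then (1 : ℂ) else 0) =
          Pi.single (Fin.castAdd d a) 1 := by
        funext j'; simp [Pi.single_apply]
      have h6 : (fun j' => if j' = a then (1 : ℂ) else 0) = Pi.single a 1 := by
        funext j'; simp [Pi.single_apply]
      first
        | rw [h5, h6, h4]
        | (rw [h4])
    · have h3 : Eq p d (Pi.single (Fin.natAdd p a) 1) = (0, Pi.single a 1) := by
        rw [Eq_apply]
        refine Prod.ext ?_ ?_
        · funext c
          simp [Pi.single_apply, Fin.ext_iff]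
          omega
        · funext c
          simp [Pi.single_apply]
      have h4 : LK L K (Pi.single (Fin.natAdd p a) 1) = K (Pi.single a 1) := by
        show L (Eq p d (Pi.single (Fin.natAdd p a) 1)).1 +
          K (Eq p d (Pi.single (Fin.natAdd p a) 1)).2 = _
        rw [h3]
        simp
      rw [finSumFinEquiv_symm_apply_natAdd, Matrix.fromCols_apply_inr, ← hkK,
        LinearMap.toMatrix'_apply]
      show LK L K _ i = K _ i
      have h5 : (fun j' => if j' = Fin.natAdd p a then (1 : ℂ) else 0) =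
          Pi.single (Fin.natAdd p a) 1 := by
        funext j'; simp [Pi.single_apply]
      have h6 : (fun j' => if j' = a then (1 : ℂ) else 0) = Pi.single a 1 := by
        funext j'; simp [Pi.single_apply]
      first
        | rw [h5, h6, h4]
        | (rw [h4])
  have hpull : H368.MFS.pull ι A e0 (e0 t) =
      k.transpose * A e (e (ι t)) * k.map (starRingEnd ℂ) :=
    pullM_eq (f := ι) hA.form (hι t) h0 h'
  rw [hd1, hd2, hpull, H185.bdet_frame b (A e (e (ι t))) l k hbk]
  ring

lemma fderiv_inj {ι : F → X} (hι : ContMDiff 𝓘(ℂ, Cm d) 𝓘(ℂ, Cm (p + d)) ω ι) (t : F)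
    (hin : Function.Injective (mfderiv 𝓘(ℂ, Cm d) 𝓘(ℂ, Cm (p + d)) ι t)) :
    Function.Injective (fderiv ℂ (fun v => chartAt (Cm (p + d)) (ι t)
      (ι ((chartAt (Cm d) t).symm v))) (chartAt (Cm d) t t)) := by
  intro v w hvw
  apply hin
  have h0 := at_chartAt (n := d) t
  have h1 := at_chartAt (n := p + d) (ι t)
  have h2 : ∀ v : Cm d, (mfderiv 𝓘(ℂ, Cm d) 𝓘(ℂ, Cm (p + d)) ι t : Cm d →L[ℂ] Cm (p + d)) v =
      fderiv ℂ (fun v => chartAt (Cm (p + d)) (ι t)
        (ι ((chartAt (Cm d) t).symm v))) (chartAt (Cm d) t t) v := by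
    intro v
    rw [mfderiv_eq_jacF (hι t) v, jmR_mulVec (rep_diff (hι t) h0 h1)]
    rfl
  exact (h2 v).trans (hvw.trans (h2 w).symm)

lemma fderiv_surj {x : X} (hy : ContMDiffAt 𝓘(ℂ, Cm (p + d)) 𝓘(ℂ, Cm p) ω y x)
    (hs : Function.Surjective (mfderiv 𝓘(ℂ, Cm (p + d)) 𝓘(ℂ, Cm p) y x)) :
    Function.Surjective (fderiv ℂ (fun z => y ((chartAt (Cm (p + d)) x).symm z))
      (chartAt (Cm (p + d)) x x)) := by
  intro w
  obtain ⟨v, hv⟩ := hs w
  refine ⟨v, ?_⟩
  rw [← hv]
  have h1 : MDifferentiableAt 𝓘(ℂ, Cm (p + d)) 𝓘(ℂ, Cm p) y x := hy.mdifferentiableAt (by simp)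
  rw [h1.mfderiv]
  simp only [mfld_simps, fderivWithin_univ]
  rfl

end rel

end Vale.Agent.P281.H575.NU
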